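import Crest.Agent.N250.Lin.Est
import Crest.Agent.N222.F.Res
import Crest.Agent.R330.Rellich_893

-- ▼ part N250/Lin/Rel
section

/-!
# Row 250, linear Gaussian theory (helper22): Rellich compactness, existence of coercive families
-/

set_option autoImplicit false
set_option linter.unusedSectionVars false
open MeasureTheory Set Filter Topology Function
open scoped ContDiff
open Crest.Agent.N222 Crest.Agent.N222.Imm

noncomputable section

namespace Crest.Agent.N250.Lin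

theorem rel_real {d : ℕ} {φ : ℕ → E (Fin d) → ℝ} {K : Set (E (Fin d))} (hK : IsCompact K)
    (hs : ∀ n, ContDiff ℝ ∞ (φ n)) (hc : ∀ n, tsupport (φ n) ⊆ K) {C : ℝ}
    (h0 : ∀ n, ∫ x, φ n x ^ 2 ≤ C)
    (h1 : ∀ n, ∫ x, ∑ i, fderiv ℝ (φ n) x (EuclideanSpace.single i 1) ^ 2 ≤ C) {δ : ℝ}
    (hδ : 0 < δ) : ∃ A ∈ hyperfilter ℕ, ∀ n ∈ A, ∀ m ∈ A, ∫ x, (φ n x - φ m x) ^ 2 ≤ δ := by
  have cs : ∀ n, HasCompactSupport (φ n) := fun n =>
    hK.of_isClosed_subset (isClosed_tsupport _) (hc n)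
  have sm : ∀ n, ContDiff ℝ ∞ fun x => (φ n x : ℂ) := fun n =>
    Complex.ofRealCLM.contDiff.comp (hs n)
  have cs' : ∀ n, HasCompactSupport fun x => (φ n x : ℂ) := fun n =>
    (cs n).comp_left (g := fun r : ℝ => (r : ℂ)) Complex.ofReal_zero
  obtain ⟨Ψ, hΨ, hl⟩ := R330.Rel893.rellich_hyper (φ := fun n x => (φ n x : ℂ)) sm cs' (C := C)
    (fun n => by simpa using h0 n) fun n => by
      refine le_of_eq_of_le (integral_congr_ae (.of_forall fun x => ?_)) (h1 n)
      have := (Complex.ofRealCLM.hasFDerivAt.comp x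
        ((hs n).differentiable (by simp) x).hasFDerivAt).fderiv
      refine Finset.sum_congr rfl fun i _ => ?_
      rw [show (fun x => (φ n x : ℂ)) = Complex.ofRealCLM ∘ φ n from rfl, this]
      simp
  obtain ⟨R, hR⟩ := hK.isBounded.exists_norm_le
  have hi : ∀ n, Integrable fun x => ‖(φ n x : ℂ) - Ψ x‖ ^ 2 := fun n =>
    (((sm n).continuous.memLp_of_hasCompactSupport (cs' n)).sub hΨ).norm.integrable_sq
  refine ⟨_, (hl R).eventually (gt_mem_nhds (by positivity : 0 < δ / 4)), fun n hn m hm => ?_⟩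
  have hn' : ∫ x in {x | ‖x‖ ≤ R}, ‖(φ n x : ℂ) - Ψ x‖ ^ 2 < δ / 4 := hn
  have hm' : ∫ x in {x | ‖x‖ ≤ R}, ‖(φ m x : ℂ) - Ψ x‖ ^ 2 < δ / 4 := hm
  rw [← setIntegral_eq_integral_of_forall_compl_eq_zero (s := {x | ‖x‖ ≤ R}) fun x hx => by
    rw [image_eq_zero_of_notMem_tsupport fun h => hx (hR x (hc n h)),
      image_eq_zero_of_notMem_tsupport fun h => hx (hR x (hc m h))]; simp]
  have h2 : ∫ x in {x | ‖x‖ ≤ R}, (φ n x - φ m x) ^ 2 ≤
      ∫ x in {x | ‖x‖ ≤ R}, (2 * ‖(φ n x : ℂ) - Ψ x‖ ^ 2 + 2 * ‖(φ m x : ℂ) - Ψ x‖ ^ 2) := by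
    refine integral_mono_of_nonneg (.of_forall fun _ => sq_nonneg _)
      (((hi n).const_mul 2).add ((hi m).const_mul 2)).integrableOn (.of_forall fun x => ?_)
    have := R335.sq_norm_sub_le ((φ n x : ℂ) - Ψ x) ((φ m x : ℂ) - Ψ x)
    rwa [sub_sub_sub_cancel_right, ← Complex.ofReal_sub, Complex.norm_real, Real.norm_eq_abs,
      sq_abs] at this
  rw [integral_add ((hi n).const_mul 2).integrableOn ((hi m).const_mul 2).integrableOn,
    integral_const_mul, integral_const_mul] at h2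
  linarith

variable {d : ℕ} {ι : Type} [Fintype ι] [DecidableEq ι] {X : Type} [TopologicalSpace X]
  [T2Space X] [SecondCountableTopology X] [MeasurableSpace X] [BorelSpace X]

namespace Gd

variable {G : Gd d ι X} {f g u v χ : X → ℝ} {e : OpenPartialHomeomorph X (E (Fin d))}

/-- the density of `nu` in a chart -/
def om (G : Gd d ι X) (e : OpenPartialHomeomorph X (E (Fin d))) (z : E (Fin d)) : ℝ :=
  jac (fderiv ℝ (G.M.x ∘ e.symm) z) * Real.exp (G.F (e.symm z))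


theorem om_pos (he : IsChart G.M.x e) {z : E (Fin d)} (hz : z ∈ e.target) : 0 < G.om e z :=
  mul_pos (jac_pos (he.inj z hz)) (Real.exp_pos _)

theorem cont_om (he : IsChart G.M.x e) : ContinuousOn (G.om e) e.target :=
  (continuousOn_jac he).mul (G.cF.comp_continuousOn e.continuousOn_symm)

theorem chart_int (he : IsChart G.M.x e) (hf : Integrable f G.nu) (hs : support f ⊆ e.source) :
    Integrable (fun z => G.om e z * push e f z) ∧
      ∫ p, f p ∂G.nu = ∫ z, G.om e z * push e f z := by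
  have e1 : (fun z => G.om e z * push e f z) = e.target.indicator fun z =>
      jac (fderiv ℝ (G.M.x ∘ e.symm) z) • (f (e.symm z) * Real.exp (G.F (e.symm z))) := by
    funext z
    by_cases hz : z ∈ e.target
    · simp only [push, indicator_of_mem hz, om, smul_eq_mul]; ring
    · simp only [push, indicator_of_notMem hz, mul_zero]
  rw [e1, integral_indicator e.open_target.measurableSet, int_nu,
    integrable_indicator_iff e.open_target.measurableSet]
  exact ⟨(integrableOn_chart he _).1 ((G.intg_nu f).1 hf).integrableOn,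
    integral_chart he ((support_mul_subset_left _ _).trans hs)⟩


theorem mul_le (hχ : G.M.Tst χ) : ∃ C : ℝ, 0 < C ∧ ∀ u, G.H1 u →
    G.n0 (fun p => χ p * u p) + G.n1 (fun p => χ p * u p) ≤ C * (G.n0 u + G.n1 u) := by
  obtain ⟨C, hC⟩ := ((tst_sq hχ).sm.continuous.add (smg1 hχ.sm).continuous).bounded_above_of_compact_support
    ((tst_sq hχ).cs.add (tst_g1 hχ).cs)
  refine ⟨2 * |C| + 1, by positivity, fun u hu => ?_⟩
  have t := tst_mul hχ hu.sm
  rw [n0, n1, n0, n1, ← integral_add (tst_intg (tst_sq t)) (tst_intg (tst_g1 t)),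
    ← integral_add hu.toS2.sq hu.d1, ← integral_const_mul]
  refine integral_mono ((tst_intg (tst_sq t)).add (tst_intg (tst_g1 t)))
    ((hu.toS2.sq.add hu.d1).const_mul _) fun p => ?_
  have h1 := g1_mul_le hχ.sm hu.sm p
  have h2 : χ p ^ 2 + G.g1 χ p ≤ |C| := (le_abs_self _).trans ((hC p).trans (le_abs_self _))
  have h3 := g1_nonneg (G := G) u p
  have h4 := g1_nonneg (G := G) χ p
  simp only [mul_pow]
  nlinarith [mul_le_mul_of_nonneg_right h2 (add_nonneg (sq_nonneg (u p)) h3),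
    mul_nonneg (sq_nonneg (χ p)) (sq_nonneg (u p)), mul_nonneg h4 h3, sq_nonneg (u p)]

theorem push_ev (f : X → ℝ) {z : E (Fin d)} (hz : z ∈ e.target) : push e f =ᶠ[𝓝 z] f ∘ e.symm :=
  eventually_of_mem (e.open_target.mem_nhds hz) fun _ hy => indicator_of_mem hy _

theorem push_of_mem (f : X → ℝ) {z : E (Fin d)} (hz : z ∈ e.target) : push e f z = f (e.symm z) :=
  indicator_of_mem hz _

theorem push_zero {T : Set X} (hT : support f ⊆ T) {z : E (Fin d)} (hz : z ∉ e '' T) :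
    push e f z = 0 := by
  by_cases hz' : z ∈ e.target
  · rw [push_of_mem f hz']
    by_contra h
    exact hz ⟨_, hT h, e.right_inv hz'⟩
  · exact indicator_of_notMem hz' _

theorem push_sm (he : IsChart G.M.x e) (hf : G.M.Tst f) (hs : tsupport f ⊆ e.source) :
    ContDiff ℝ ∞ (push e f) :=
  contDiff_iff_contDiffAt.2 fun z => by
    by_cases hz : z ∈ e.target
    · exact ((hf.sm.chart he).contDiffAt (e.open_target.mem_nhds hz)).congr_of_eventuallyEq
        (push_ev _ hz)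
    · refine (contDiffAt_const (c := 0)).congr_of_eventuallyEq
        (notMem_tsupport_iff_eventuallyEq.1 fun h => hz ?_)
      rw [tsupport_push hf.cs hs] at h
      obtain ⟨p, hp, rfl⟩ := h
      exact e.map_source (hs hp)

theorem img_sub {T : Set X} (hs : T ⊆ e.source) : e '' T ⊆ e.target := by
  rintro _ ⟨p, hp, rfl⟩
  exact e.map_source (hs hp)

theorem int_le_chart (he : IsChart G.M.x e) (hf : Integrable f G.nu)
    (hs : support f ⊆ e.source) {h : E (Fin d) → ℝ} (h1 : ∀ z, 0 ≤ h z) {C : ℝ}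
    (h2 : ∀ z, h z ≤ C * (G.om e z * push e f z)) : ∫ z, h z ≤ C * ∫ p, f p ∂G.nu := by
  obtain ⟨i1, e1⟩ := chart_int he hf hs
  rw [e1, ← integral_const_mul]
  exact integral_mono_of_nonneg (.of_forall h1) (i1.const_mul _) (.of_forall h2)

theorem fderiv_push_le (he : IsChart G.M.x e) (f : X → ℝ) {z : E (Fin d)} (hz : z ∈ e.target)
    (w : E (Fin d)) : fderiv ℝ (push e f) z w ^ 2 ≤
      ‖fderiv ℝ (G.M.x ∘ e.symm) z w‖ ^ 2 * G.g1 f (e.symm z) := by
  have e2 := fderiv_chart f he (e.map_target hz)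
  rw [e.right_inv hz] at e2
  rw [(push_ev f hz).fderiv_eq, e2, ContinuousLinearMap.comp_apply, td_eq_inner, g1, gam_self_eq,
    ← mul_pow, mul_comm, ← sq_abs]
  exact pow_le_pow_left₀ (abs_nonneg _) (abs_real_inner_le_norm _ _) 2

theorem chart_bounds (he : IsChart G.M.x e) {T : Set X} (hT : IsCompact T) (hs : T ⊆ e.source) :
    ∃ C : ℝ, 0 < C ∧ ∀ f, G.M.Tst f → tsupport f ⊆ T → ∫ z, push e f z ^ 2 ≤ C * G.n0 f ∧
      ∫ z, ∑ i, fderiv ℝ (push e f) z (EuclideanSpace.single i 1) ^ 2 ≤ C * G.n1 f ∧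
      G.n0 f ≤ C * ∫ z, push e f z ^ 2 := by
  have hK : IsCompact (e '' T) := hT.image_of_continuousOn (e.continuousOn.mono hs)
  have hKt := img_sub hs
  have cJ : ContinuousOn (fun z => fderiv ℝ (G.M.x ∘ e.symm) z) e.target :=
    he.sm.continuousOn_fderiv_of_isOpen e.open_target (by simp)
  have c2 : ContinuousOn (fun z =>
      1 + ∑ i, ‖fderiv ℝ (G.M.x ∘ e.symm) z (EuclideanSpace.single i 1)‖ ^ 2) e.target :=
    continuousOn_const.add (continuousOn_finsetSum _ fun i _ =>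
      (cJ.clm_apply continuousOn_const).norm.pow 2)
  obtain ⟨C₁, h₁⟩ := hK.exists_bound_of_continuousOn ((cont_om he).mono hKt)
  obtain ⟨C₂, h₂⟩ := hK.exists_bound_of_continuousOn
    ((c2.div (cont_om he) fun z hz => (om_pos he hz).ne').mono hKt)
  obtain ⟨C, hC, a₁, a₂⟩ : ∃ C : ℝ, 0 < C ∧ C₁ ≤ C ∧ C₂ ≤ C :=
    ⟨max 1 (max C₁ C₂), lt_max_of_lt_left one_pos, le_max_of_le_right (le_max_left _ _),
      le_max_of_le_right (le_max_right _ _)⟩
  have h₂' : ∀ z ∈ e '' T,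
      1 + ∑ i, ‖fderiv ℝ (G.M.x ∘ e.symm) z (EuclideanSpace.single i 1)‖ ^ 2 ≤
        C * G.om e z := fun z hz => (div_le_iff₀ (om_pos he (hKt hz))).1
    ((le_abs_self _).trans ((h₂ z hz).trans a₂))
  refine ⟨C, hC, fun f hf hfT => ?_⟩
  have s1 : support f ⊆ T := (subset_tsupport f).trans hfT
  have s2 : support (fun p => f p ^ 2) ⊆ T := fun p hp => s1 fun h => hp (by simp [h])
  have s3 : support (G.g1 f) ⊆ T := fun p hp => by
    by_contra h0
    exact hp (gam_zero _ fun h => h0 (hfT h))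
  have tK : tsupport (push e f) ⊆ e '' T := by
    rw [tsupport_push hf.cs (hfT.trans hs)]
    exact image_mono hfT
  refine ⟨int_le_chart he (tst_intg (tst_sq hf)) (s2.trans hs)
    (fun _ => sq_nonneg _) fun z => ?_, int_le_chart he (tst_intg (tst_g1 hf))
      (s3.trans hs) (fun _ => Finset.sum_nonneg fun _ _ => sq_nonneg _) fun z => ?_, ?_⟩
  · by_cases hz : z ∈ e '' T
    · rw [push_of_mem _ (hKt hz), push_of_mem _ (hKt hz), ← mul_assoc]
      exact le_mul_of_one_le_left (sq_nonneg _) ((le_add_of_nonneg_right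
        (Finset.sum_nonneg fun _ _ => sq_nonneg _)).trans (h₂' z hz))
    · rw [push_zero s1 hz, push_zero s2 hz]
      simp
  · by_cases hz : z ∈ e '' T
    · rw [push_of_mem _ (hKt hz), ← mul_assoc]
      refine le_trans ?_ (mul_le_mul_of_nonneg_right
        ((le_add_of_nonneg_left zero_le_one).trans (h₂' z hz)) (g1_nonneg _ _))
      rw [Finset.sum_mul]
      exact Finset.sum_le_sum fun i _ => fderiv_push_le he f (hKt hz) _
    · rw [push_zero s3 hz, fderiv_of_notMem_tsupport ℝ fun h => hz (tK h)]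
      simp
  · obtain ⟨i1, e1⟩ := chart_int he (tst_intg (tst_sq hf)) (s2.trans hs)
    rw [n0, e1, ← integral_const_mul]
    refine integral_mono i1 (((push_sm he hf (hfT.trans hs)).continuous.memLp_of_hasCompactSupport
      (hK.of_isClosed_subset (isClosed_tsupport _) tK)).integrable_sq.const_mul _) fun z => ?_
    by_cases hz : z ∈ e '' T
    · simp only [push_of_mem _ (hKt hz)]
      exact mul_le_mul_of_nonneg_right ((le_abs_self _).trans ((h₁ z hz).trans a₁)) (sq_nonneg _)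
    · simp only [push_zero s2 hz, mul_zero]
      positivity

/-- Rellich in one chart -/
theorem rel_chart (he : IsChart G.M.x e) (hχ : G.M.Tst χ) (hs : tsupport χ ⊆ e.source)
    {u : ℕ → X → ℝ} (hu : ∀ n, G.H1 (u n)) (hb : ∀ n, G.n0 (u n) + G.n1 (u n) ≤ 1) {δ : ℝ}
    (hδ : 0 < δ) : ∃ A ∈ hyperfilter ℕ, ∀ n ∈ A, ∀ m ∈ A,
      ∫ p, (χ p * u n p - χ p * u m p) ^ 2 ∂G.nu ≤ δ := by
  obtain ⟨C, hC, h₁⟩ := chart_bounds he hχ.cs.isCompact hs
  obtain ⟨C₃, hC₃, h₃⟩ := mul_le hχ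
  have t : ∀ n, G.M.Tst fun p => χ p * u n p := fun n => tst_mul hχ (hu n).sm
  have ts : ∀ n, tsupport (fun p => χ p * u n p) ⊆ tsupport χ := fun n => tsupport_mul_subset_left
  have bd : ∀ n, G.n0 (fun p => χ p * u n p) + G.n1 (fun p => χ p * u n p) ≤ C₃ := fun n =>
    (h₃ _ (hu n)).trans (mul_le_of_le_one_right hC₃.le (hb n))
  obtain ⟨A, hA, h⟩ := rel_real
    (hχ.cs.isCompact.image_of_continuousOn (e.continuousOn.mono hs))
    (fun n => push_sm he (t n) ((ts n).trans hs))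
    (fun n => (tsupport_push (t n).cs ((ts n).trans hs)).trans_subset (image_mono (ts n)))
    (C := C * C₃) (fun n => (h₁ _ (t n) (ts n)).1.trans (mul_le_mul_of_nonneg_left
        ((le_add_of_nonneg_right (n1_nonneg _)).trans (bd n)) hC.le))
    (fun n => (h₁ _ (t n) (ts n)).2.1.trans (mul_le_mul_of_nonneg_left
        ((le_add_of_nonneg_left (n0_nonneg _)).trans (bd n)) hC.le))
    (δ := δ / C) (by positivity)
  refine ⟨A, hA, fun n hn m hm => ?_⟩
  have h4 := (le_div_iff₀' hC).1 (h n hn m hm)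
  have h5 := (h₁ (fun p => χ p * u n p - χ p * u m p)
    ⟨(t n).sm.sub (t m).sm, (t n).cs.sub (t m).cs⟩ (by
      simp only [← mul_sub]
      exact tsupport_mul_subset_left)).2.2
  refine h5.trans (le_of_eq_of_le ?_ h4)
  congr 1
  refine integral_congr_ae (.of_forall fun z => ?_)
  by_cases hz : z ∈ e.target
  · simp only [push_of_mem _ hz]
  · simp only [push, indicator_of_notMem hz, sub_self]

/-- Rellich with a compactly supported weight -/
theorem rel (hχ : G.M.Tst χ) (h1 : ∀ p, χ p ≤ 1)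
    {u : ℕ → X → ℝ} (hu : ∀ n, G.H1 (u n)) (hb : ∀ n, G.n0 (u n) + G.n1 (u n) ≤ 1) {δ : ℝ}
    (hδ : 0 < δ) : ∃ n m, n < m ∧ ∫ p, χ p * (u n p - u m p) ^ 2 ∂G.nu ≤ δ := by
  obtain ⟨N, φ, i, hφ, -, h2⟩ := G.M.exists_partition hχ.cs.isCompact
    (fun p => (G.M.ch p).source) (fun p => (G.M.ch p).open_source)
    fun p _ => mem_iUnion.2 ⟨p, G.M.mem p⟩
  choose A hA h using fun k => rel_chart (G.M.isChart (i k)) (hφ k).1 (hφ k).2.1 hu hb
    (δ := δ / (N + 1) ^ 2) (by positivity)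
  have hinf : (⋂ k, A k).Infinite := fun hf =>
    hf.notMem_hyperfilter (Filter.iInter_mem.2 hA : (⋂ k, A k) ∈ (hyperfilter ℕ : Filter ℕ))
  obtain ⟨n, hn⟩ := hinf.nonempty
  obtain ⟨m, hm, hnm⟩ := hinf.exists_gt n
  refine ⟨n, m, hnm, ?_⟩
  have t : ∀ k, Integrable (fun p => (φ k p * u n p - φ k p * u m p) ^ 2) G.nu := fun k =>
    ((tst_s2 (tst_mul (hφ k).1 (hu n).sm)).sub (tst_s2 (tst_mul (hφ k).1 (hu m).sm))).sq
  have h3 : ∫ p, χ p * (u n p - u m p) ^ 2 ∂G.nu ≤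
      ∫ p, N * ∑ k, (φ k p * u n p - φ k p * u m p) ^ 2 ∂G.nu := by
    refine integral_mono (tst_intg (tst_mul hχ (((hu n).sm.sub (hu m).sm).pow 2)))
      ((integrable_finsetSum _ fun k _ => t k).const_mul _) fun p => ?_
    by_cases hp : p ∈ tsupport χ
    · have a1 := sq_sum_le_card_mul_sum_sq (s := Finset.univ) (f := fun k => φ k p)
      rw [h2.self_of_nhdsSet p hp, one_pow, Finset.card_univ, Fintype.card_fin] at a1
      simp only [← mul_sub, mul_pow, ← Finset.sum_mul, ← mul_assoc]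
      exact mul_le_mul_of_nonneg_right ((h1 p).trans a1) (sq_nonneg _)
    · simp only [image_eq_zero_of_notMem_tsupport hp, zero_mul]
      positivity
  rw [integral_const_mul, integral_finsetSum _ fun k _ => t k] at h3
  have h4 := Finset.sum_le_card_nsmul Finset.univ _ _ fun k _ =>
    h k n (mem_iInter.1 hn k) m (mem_iInter.1 hm k)
  rw [Finset.card_univ, Fintype.card_fin, nsmul_eq_mul] at h4
  refine h3.trans ((mul_le_mul_of_nonneg_left h4 N.cast_nonneg).trans ?_)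
  rw [← mul_assoc, mul_div_assoc', div_le_iff₀ (by positivity)]
  have : (0 : ℝ) ≤ N := N.cast_nonneg
  nlinarith [mul_nonneg hδ.le this]

theorem n0_const_mul (c : ℝ) (u : X → ℝ) : G.n0 (fun p => c * u p) = c ^ 2 * G.n0 u := by
  simp only [n0, mul_pow, integral_const_mul]

theorem n1_const_mul (c : ℝ) (hu : G.M.Sm u) : G.n1 (fun p => c * u p) = c ^ 2 * G.n1 u := by
  simp only [n1, g1_eq, D_cmul' c hu, mul_pow, ← Finset.mul_sum, integral_const_mul]

theorem ip_const_mul (c : ℝ) (u v : X → ℝ) : G.ip u (fun p => c * v p) = c * G.ip u v := by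
  simp only [ip, mul_left_comm _ c, integral_const_mul]

/-- on a subspace of finite codimension the `L²` norm is small -/
theorem exists_small (G : Gd d ι X) {ε : ℝ} (hε : 0 < ε) : ∃ s : Finset (X → ℝ),
    (∀ w ∈ s, G.M.Tst w) ∧ ∀ u, G.H1 u → (∀ w ∈ s, G.ip w u = 0) →
      G.n0 u ≤ ε * (G.n0 u + G.n1 u) := by
  classical
  obtain ⟨C, hC, hE⟩ := G.ecker
  obtain ⟨N, hN⟩ := exists_nat_ge (4 * C / ε)
  have hN1 : (0 : ℝ) < N + 1 := by positivity
  have hN2 : 2 / (N + 1) * C ≤ ε / 2 := by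
    rw [div_le_iff₀ hε] at hN
    rw [div_mul_eq_mul_div, div_le_iff₀ hN1]
    nlinarith
  have tc := G.tst_cut N
  have key : ∀ u, G.H1 u → G.n0 u ≤
      ∫ p, G.cut N p * u p ^ 2 ∂G.nu + ε / 2 * (G.n0 u + G.n1 u) := fun u hu => by
    obtain ⟨i1, h1⟩ := hE u hu
    have i2 := tst_intg (tst_mul tc (hu.sm.pow 2))
    have h2 : G.n0 u ≤ ∫ p, (G.cut N p * u p ^ 2 + 2 / (N + 1) * (G.ρ p * u p ^ 2)) ∂G.nu := by
      refine integral_mono hu.toS2.sq (i2.add (i1.const_mul _)) fun p => ?_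
      have a1 := mul_nonneg (G.ρ0 p) (sq_nonneg (u p))
      by_cases hp : G.ρ p ≤ (N + 1) / 2
      · simp only [cut_one hp, one_mul]
        exact le_add_of_nonneg_right (by positivity)
      · have a2 : 1 ≤ 2 / (N + 1) * G.ρ p := by
          rw [div_mul_eq_mul_div, le_div_iff₀ hN1]; linarith
        simp only [← mul_assoc]
        nlinarith [mul_nonneg (cut_nonneg (G := G) N p) (sq_nonneg (u p)),
          mul_le_mul_of_nonneg_right a2 (sq_nonneg (u p))]
    rw [integral_add i2 (i1.const_mul _), integral_const_mul] at h2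
    have h3 := add_nonneg (n0_nonneg (G := G) u) (n1_nonneg (G := G) u)
    have h4 := mul_le_mul_of_nonneg_left h1 (by positivity : 0 ≤ 2 / ((N : ℝ) + 1))
    nlinarith [mul_le_mul_of_nonneg_right hN2 h3]
  by_contra hcon
  push Not at hcon
  obtain ⟨u, hu, hr⟩ := exists_seq_of_forall_finset_exists
    (fun u => G.H1 u ∧ G.n0 u + G.n1 u ≤ 1 ∧ ε / 2 < ∫ p, G.cut N p * u p ^ 2 ∂G.nu)
    (fun u v => G.ip (fun p => G.cut N p * u p) v = 0) fun s hs => by
      obtain ⟨u, hu, h1, h2⟩ := hcon (s.image fun w p => G.cut N p * w p) fun w hw => by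
        obtain ⟨w', hw', rfl⟩ := Finset.mem_image.1 hw
        exact tst_mul tc (hs w' hw').1.sm
      have h3 := key u hu
      have h0 : 0 < G.n0 u + G.n1 u := by
        have a1 := n0_nonneg (G := G) u
        have a2 := n1_nonneg (G := G) u
        nlinarith [mul_nonneg hε.le (add_nonneg a1 a2)]
      have e1 : (√(G.n0 u + G.n1 u))⁻¹ ^ 2 = (G.n0 u + G.n1 u)⁻¹ := by
        rw [inv_pow, Real.sq_sqrt h0.le]
      refine ⟨fun p => (√(G.n0 u + G.n1 u))⁻¹ * u p, ⟨hu.const_mul _, ?_, ?_⟩, fun w hw => ?_⟩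
      · rw [n0_const_mul, n1_const_mul _ hu.sm, ← mul_add, e1, inv_mul_cancel₀ h0.ne']
      · simp only [mul_pow, mul_left_comm (G.cut N _), integral_const_mul, e1]
        rw [← div_eq_inv_mul, lt_div_iff₀ h0]
        linarith
      · rw [ip_const_mul, h1 _ (Finset.mem_image_of_mem _ hw), mul_zero]
  obtain ⟨n, m, hnm, h⟩ := rel tc (cut_le N) (fun n => (hu n).1) (fun n => (hu n).2.1) hε
  have h1 := hr n m hnm
  have i1 := tst_intg (tst_mul tc ((hu n).1.sm.pow 2))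
  have i2 := tst_intg (tst_mul tc ((hu m).1.sm.pow 2))
  have i3 := tst_intg (tst_mul (tst_mul tc (hu n).1.sm) (hu m).1.sm)
  have e : ∀ p, G.cut N p * (u n p - u m p) ^ 2 = G.cut N p * u n p ^ 2 + G.cut N p * u m p ^ 2 -
      2 * (G.cut N p * u n p * u m p) := fun p => by ring
  have i4 : Integrable (fun p => G.cut N p * u n p ^ 2 + G.cut N p * u m p ^ 2) G.nu := i1.add i2
  simp only [e] at h
  rw [integral_sub i4 (i3.const_mul 2), integral_add i1 i2, integral_const_mul] at h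
  rw [ip] at h1
  linarith [(hu n).2.2, (hu m).2.2]

end Gd

end Crest.Agent.N250.Lin

end
end

-- ▼ part N250/Lin/Fam

/-!
# Row 250, linear Gaussian theory (helper22): coercive families, dual functions, the gap estimate
-/

set_option autoImplicit false
set_option linter.unusedSectionVars false
open MeasureTheory Set Filter Topology Function
open scoped ContDiff
open Crest.Agent.N222 Crest.Agent.N222.Imm

noncomputable section

namespace Crest.Agent.N250.Lin

variable {d : ℕ} {ι : Type} [Fintype ι] [DecidableEq ι] {X : Type} [TopologicalSpace X]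
  [T2Space X] [SecondCountableTopology X] [MeasurableSpace X] [BorelSpace X]

namespace Gd

variable {G : Gd d ι X} {f g u v w : X → ℝ}

/-! ### bilinearity -/

theorem ip_add (hw : G.S2 w) (hu : G.S2 u) (hv : G.S2 v) :
    G.ip w (fun p => u p + v p) = G.ip w u + G.ip w v := by
  simp only [ip, mul_add]
  exact integral_add (hw.mul hu) (hw.mul hv)

theorem ip_sub (hw : G.S2 w) (hu : G.S2 u) (hv : G.S2 v) :
    G.ip w (fun p => u p - v p) = G.ip w u - G.ip w v := by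
  simp only [ip, mul_sub]
  exact integral_sub (hw.mul hu) (hw.mul hv)

theorem s2_lc {κ : Type*} [Fintype κ] {y : κ → X → ℝ} (hy : ∀ k, G.S2 (y k)) (x : κ → ℝ) :
    G.S2 fun p => ∑ k, x k * y k p := s2_sum _ fun k => (hy k).const_mul _

theorem h1_lc {κ : Type*} [Fintype κ] {y : κ → X → ℝ} (hy : ∀ k, G.H1 (y k)) (x : κ → ℝ) :
    G.H1 fun p => ∑ k, x k * y k p := h1_sum _ fun k => (hy k).const_mul _

theorem tst_lc {κ : Type*} [Fintype κ] {y : κ → X → ℝ} (hy : ∀ k, G.M.Tst (y k)) (x : κ → ℝ) :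
    G.M.Tst fun p => ∑ k, x k * y k p :=
  ⟨sm_sum _ fun k _ => (sm_const _).mul (hy k).sm,
    HasCompactSupport.intro (isCompact_iUnion fun k => (hy k).cs.isCompact) fun p hp =>
      Finset.sum_eq_zero fun k _ => by
        rw [image_eq_zero_of_notMem_tsupport fun h => hp (mem_iUnion.2 ⟨k, h⟩), mul_zero]⟩

theorem ip_lc {κ : Type*} [Fintype κ] {y : κ → X → ℝ} (hw : G.S2 w) (hy : ∀ k, G.S2 (y k))
    (x : κ → ℝ) : G.ip w (fun p => ∑ k, x k * y k p) = ∑ k, x k * G.ip w (y k) := by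
  simp only [ip, Finset.mul_sum, mul_left_comm (w _)]
  rw [integral_finsetSum _ fun k _ => (hw.mul (hy k)).const_mul _]
  simp only [integral_const_mul]

theorem L_lc {κ : Type*} [Fintype κ] {y : κ → X → ℝ} (hy : ∀ k, G.M.Sm (y k)) (x : κ → ℝ)
    (p : X) : G.L (fun p => ∑ k, x k * y k p) p = ∑ k, x k * G.L (y k) p := by
  rw [L_sum _ fun k => (sm_const _).mul (hy k)]
  exact Finset.sum_congr rfl fun k _ => L_const_mul _ (hy k) p

theorem ip_self (u : X → ℝ) : G.ip u u = G.n0 u := by simp only [ip, n0, sq]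

theorem eq_zero_of_n0 (hu : G.S2 u) (h : G.n0 u = 0) : u = 0 := by
  have h1 := (integral_eq_zero_iff_of_nonneg (fun _ => sq_nonneg _) hu.sq).1 h
  have h2 := (Continuous.ae_eq_iff_eq G.nu (hu.sm.continuous.pow 2) continuous_zero).1 h1
  exact funext fun p => pow_eq_zero_iff two_ne_zero |>.1 (congrFun h2 p)

theorem le_of_forall_t {x a b : ℝ} (ha : 0 ≤ a) (hb : 0 ≤ b)
    (h : ∀ t : ℝ, 0 < t → 2 * |x| ≤ t * a + t⁻¹ * b) : x ^ 2 ≤ a * b := by
  rcases (abs_nonneg x).eq_or_lt with h0 | h0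
  · rw [← sq_abs, ← h0]; simpa using mul_nonneg ha hb
  rcases ha.eq_or_lt with h1 | h1
  · have h2 := h ((b + 1) / |x|) (by positivity)
    rw [← h1, mul_zero, zero_add, inv_div, div_mul_eq_mul_div, le_div_iff₀ (by positivity)] at h2
    nlinarith
  · have h2 := h (|x| / a) (by positivity)
    rw [div_mul_cancel₀ _ h1.ne', inv_div, div_mul_eq_mul_div] at h2
    have h3 : |x| ≤ a * b / |x| := by linarith
    rwa [le_div_iff₀ h0, ← sq, sq_abs] at h3

theorem two_abs_mul_le (a b : ℝ) {t : ℝ} (ht : 0 < t) : 2 * |a * b| ≤ t * a ^ 2 + t⁻¹ * b ^ 2 := by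
  have h := sq_nonneg (t * |a| - |b|)
  rw [abs_mul, ← sq_abs a, ← sq_abs b, ← mul_le_mul_iff_right₀ ht, mul_add, mul_inv_cancel_left₀ ht.ne']
  nlinarith

/-- Cauchy-Schwarz -/
theorem ip_sq_le (hu : G.S2 u) (hv : G.S2 v) : G.ip u v ^ 2 ≤ G.n0 u * G.n0 v := by
  refine le_of_forall_t (n0_nonneg u) (n0_nonneg v) fun t ht => ?_
  rw [n0, n0, ← integral_const_mul, ← integral_const_mul,
    ← integral_add (hu.sq.const_mul _) (hv.sq.const_mul _)]
  refine le_trans (mul_le_mul_of_nonneg_left abs_integral_le_integral_abs zero_le_two) ?_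
  rw [← integral_const_mul]
  exact integral_mono ((hu.mul hv).abs.const_mul _) ((hu.sq.const_mul _).add (hv.sq.const_mul _))
    fun p => two_abs_mul_le _ _ ht

theorem intg_Q (hu : G.H1 u) (hv : G.H1 v) :
    Integrable (fun p => G.M.pre.gam u v p - G.c p * (u p * v p)) G.nu := by
  simp only [← mul_assoc]
  exact (hu.gam hv).sub (hu.toS2.cmul.mul hv.toS2)

theorem two_abs_Q_le (hu : G.H1 u) (hv : G.H1 v) {t : ℝ} (ht : 0 < t) :
    2 * |G.Q u v| ≤ t * (G.B * (G.n0 u + G.n1 u)) + t⁻¹ * (G.B * (G.n0 v + G.n1 v)) := by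
  have iu : Integrable (fun p => u p ^ 2 + G.g1 u p) G.nu := hu.toS2.sq.add hu.d1
  have iv : Integrable (fun p => v p ^ 2 + G.g1 v p) G.nu := hv.toS2.sq.add hv.d1
  have iq := intg_Q hu hv
  rw [n0, n0, n1, n1, ← integral_add hu.toS2.sq hu.d1, ← integral_add hv.toS2.sq hv.d1,
    ← integral_const_mul, ← integral_const_mul, ← integral_const_mul, ← integral_const_mul,
    ← integral_add ((iu.const_mul _).const_mul _) ((iv.const_mul _).const_mul _)]
  refine le_trans (mul_le_mul_of_nonneg_left abs_integral_le_integral_abs zero_le_two) ?_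
  rw [← integral_const_mul]
  refine integral_mono (iq.abs.const_mul _)
    (((iu.const_mul _).const_mul _).add ((iv.const_mul _).const_mul _)) fun p => ?_
  have a1 : 2 * |G.M.pre.gam u v p| ≤ t * G.g1 u p + t⁻¹ * G.g1 v p := by
    rw [gam_apply, g1_eq, g1_eq, Finset.mul_sum, Finset.mul_sum, ← Finset.sum_add_distrib]
    refine le_trans (mul_le_mul_of_nonneg_left (Finset.abs_sum_le_sum_abs _ _) zero_le_two) ?_
    rw [Finset.mul_sum]
    exact Finset.sum_le_sum fun a _ => two_abs_mul_le _ _ ht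
  have a2 := two_abs_mul_le (u p) (v p) ht
  have a3 : |G.c p * (u p * v p)| ≤ G.B * |u p * v p| := by
    rw [abs_mul]; exact mul_le_mul_of_nonneg_right (G.cle p) (abs_nonneg _)
  have a4 := abs_sub (G.M.pre.gam u v p) (G.c p * (u p * v p))
  have a5 : 0 ≤ t * G.g1 u p + t⁻¹ * G.g1 v p := le_trans (by positivity) a1
  have hB := G.one
  simp only
  nlinarith [mul_le_mul_of_nonneg_left a2 (by linarith : 0 ≤ G.B),
    mul_le_mul_of_nonneg_right hB a5]

theorem Q_sq_le (hu : G.H1 u) (hv : G.H1 v) :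
    G.Q u v ^ 2 ≤ G.B * (G.n0 u + G.n1 u) * (G.B * (G.n0 v + G.n1 v)) := by
  have hB : 0 ≤ G.B := zero_le_one.trans G.one
  exact le_of_forall_t (mul_nonneg hB (add_nonneg (n0_nonneg _) (n1_nonneg _)))
    (mul_nonneg hB (add_nonneg (n0_nonneg _) (n1_nonneg _))) fun t ht => two_abs_Q_le hu hv ht

theorem gam_add (hu : G.M.Sm u) (hv : G.M.Sm v) (w : X → ℝ) (p : X) :
    G.M.pre.gam w (fun p => u p + v p) p = G.M.pre.gam w u p + G.M.pre.gam w v p := by
  simp only [gam_apply, D_add (hu.diffAt p) (hv.diffAt p), mul_add, Finset.sum_add_distrib]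

theorem Q_add (hw : G.H1 w) (hu : G.H1 u) (hv : G.H1 v) :
    G.Q w (fun p => u p + v p) = G.Q w u + G.Q w v := by
  simp only [Q, gam_add hu.sm hv.sm]
  rw [← integral_add (intg_Q hw hu) (intg_Q hw hv)]
  exact integral_congr_ae (.of_forall fun p => by ring)

theorem Q_self_ge (hu : G.H1 u) : G.n1 u - G.B * G.n0 u ≤ G.Q u u := by
  rw [n1, n0, ← integral_const_mul, ← integral_sub hu.d1 (hu.toS2.sq.const_mul _)]
  refine integral_mono (hu.d1.sub (hu.toS2.sq.const_mul _)) (intg_Q hu hu) fun p => ?_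
  have := mul_le_mul_of_nonneg_right (le_of_abs_le (G.cle p)) (sq_nonneg (u p))
  simp only [g1]
  nlinarith

theorem n0_add_le (hu : G.S2 u) (hv : G.S2 v) :
    G.n0 (fun p => u p + v p) ≤ 2 * G.n0 u + 2 * G.n0 v := by
  rw [n0, n0, n0, ← integral_const_mul, ← integral_const_mul,
    ← integral_add (hu.sq.const_mul _) (hv.sq.const_mul _)]
  exact integral_mono (hu.add hv).sq ((hu.sq.const_mul _).add (hv.sq.const_mul _)) fun p => by
    simp only
    nlinarith [sq_nonneg (u p - v p)]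

theorem n1_add_le (hu : G.H1 u) (hv : G.H1 v) :
    G.n1 (fun p => u p + v p) ≤ 2 * G.n1 u + 2 * G.n1 v := by
  rw [n1, n1, n1, ← integral_const_mul, ← integral_const_mul,
    ← integral_add (hu.d1.const_mul _) (hv.d1.const_mul _)]
  refine integral_mono (hu.add hv).d1 ((hu.d1.const_mul _).add (hv.d1.const_mul _)) fun p => ?_
  simp only [g1_eq, D_add' hu.sm hv.sm, Finset.mul_sum, ← Finset.sum_add_distrib]
  exact Finset.sum_le_sum fun a _ => by nlinarith [sq_nonneg (G.D a u p - G.D a v p)]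

theorem n0_lc_le {κ : Type*} [Fintype κ] {y : κ → X → ℝ} (hy : ∀ k, G.S2 (y k)) (x : κ → ℝ) :
    G.n0 (fun p => ∑ k, x k * y k p) ≤ (∑ k, x k ^ 2) * ∑ k, G.n0 (y k) := by
  simp only [n0]
  rw [← integral_finsetSum _ fun k _ => (hy k).sq, ← integral_const_mul]
  exact integral_mono (s2_lc hy x).sq ((integrable_finsetSum _ fun k _ => (hy k).sq).const_mul _)
    fun p => Finset.sum_mul_sq_le_sq_mul_sq _ _ _

theorem D_lc {κ : Type*} [Fintype κ] {y : κ → X → ℝ} (hy : ∀ k, G.M.Sm (y k)) (x : κ → ℝ)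
    (a : ι) (p : X) : G.D a (fun p => ∑ k, x k * y k p) p = ∑ k, x k * G.D a (y k) p := by
  rw [D, D_sum _ fun k _ => ((sm_const _).mul (hy k)).diffAt p]
  exact Finset.sum_congr rfl fun k _ => D_const_mul _ ((hy k).diffAt p) a

theorem n1_lc_le {κ : Type*} [Fintype κ] {y : κ → X → ℝ} (hy : ∀ k, G.H1 (y k)) (x : κ → ℝ) :
    G.n1 (fun p => ∑ k, x k * y k p) ≤ (∑ k, x k ^ 2) * ∑ k, G.n1 (y k) := by
  simp only [n1]
  rw [← integral_finsetSum _ fun k _ => (hy k).d1, ← integral_const_mul]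
  refine integral_mono (h1_lc hy x).d1
    ((integrable_finsetSum _ fun k _ => (hy k).d1).const_mul _) fun p => ?_
  simp only [g1_eq, D_lc fun k => (hy k).sm]
  rw [Finset.sum_comm, Finset.mul_sum]
  exact Finset.sum_le_sum fun a _ => Finset.sum_mul_sq_le_sq_mul_sq _ _ _

/-! ### families -/

theorem solve_lin {κ : Type} [Fintype κ] (A : κ → κ → ℝ)
    (h : ∀ x : κ → ℝ, (∀ j, ∑ k, x k * A j k = 0) → x = 0) (y : κ → ℝ) :
    ∃ x : κ → ℝ, ∀ j, ∑ k, x k * A j k = y j := by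
  classical
  have h1 : Injective (Matrix.toLin' (Matrix.of A)) := by
    rw [← LinearMap.ker_eq_bot, LinearMap.ker_eq_bot']
    intro x hx
    refine h x fun j => Eq.trans ?_ (congrFun hx j)
    simp [Matrix.mulVec, dotProduct, mul_comm]
  obtain ⟨x, hx⟩ := LinearMap.injective_iff_surjective.1 h1 y
  refine ⟨x, fun j => Eq.trans ?_ (congrFun hx j)⟩
  simp [Matrix.mulVec, dotProduct, mul_comm]

theorem li_zero {κ : Type} [Fintype κ] {ψ : κ → X → ℝ} (h : LinearIndependent ℝ ψ) {x : κ → ℝ}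
    (hx : ∀ p, ∑ k, x k * ψ k p = 0) : x = 0 :=
  funext (Fintype.linearIndependent_iff.1 h x (funext fun p => by simpa using hx p))

theorem li_of {κ : Type} [Fintype κ] {ψ : κ → X → ℝ}
    (h : ∀ x : κ → ℝ, (∀ p, ∑ k, x k * ψ k p = 0) → x = 0) : LinearIndependent ℝ ψ :=
  Fintype.linearIndependent_iff.2 fun x hx =>
    congrFun (h x fun p => by simpa using congrFun hx p)

/-- dual test functions -/
theorem exists_dual {κ : Type} [Fintype κ] [DecidableEq κ] {ψ : κ → X → ℝ}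
    (ht : ∀ k, G.M.Tst (ψ k)) (h : LinearIndependent ℝ ψ) : ∃ θ : κ → X → ℝ,
      (∀ k, G.M.Tst (θ k)) ∧ (∀ k, ∃ x : κ → ℝ, θ k = fun p => ∑ l, x l * ψ l p) ∧
      ∀ j k, G.ip (ψ j) (θ k) = if j = k then 1 else 0 := by
  have s2 : ∀ k, G.S2 (ψ k) := fun k => tst_s2 (ht k)
  choose x hx using fun k => solve_lin (fun j l => G.ip (ψ j) (ψ l)) (fun x hx => by
    refine li_zero h fun p => congrFun (eq_zero_of_n0 (s2_lc s2 x) ?_) p
    rw [← ip_self, ip_lc (s2_lc s2 x) s2]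
    refine Finset.sum_eq_zero fun j _ => ?_
    rw [ip_comm, ip_lc (s2 j) s2, hx j, mul_zero]) fun j => if j = k then 1 else 0
  exact ⟨fun k p => ∑ l, x k l * ψ l p, fun k => tst_lc ht _, fun k => ⟨_, rfl⟩, fun j k => by
    rw [ip_lc (s2 j) s2, hx k j]⟩

theorem ip_span {s : Set (X → ℝ)} (hs : ∀ w ∈ s, G.S2 w) (hu : G.S2 u)
    (h : ∀ w ∈ s, G.ip w u = 0) (hw : w ∈ Submodule.span ℝ s) : G.S2 w ∧ G.ip w u = 0 := by
  induction hw using Submodule.span_induction with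
  | mem w hw => exact ⟨hs w hw, h w hw⟩
  | zero => exact ⟨⟨sm_const 0, MemLp.zero⟩, by simp [ip]⟩
  | add w w' _ _ h1 h2 =>
    exact ⟨h1.1.add h2.1, by
      rw [ip_comm, show w + w' = fun p => w p + w' p from rfl, ip_add hu h1.1 h2.1, ip_comm, h1.2,
        ip_comm, h2.2, add_zero]⟩
  | smul c w _ h1 =>
    exact ⟨h1.1.const_mul c, by
      rw [ip_comm, show c • w = fun p => c * w p from rfl, ip_const_mul, ip_comm, h1.2, mul_zero]⟩

/-- a family whose span contains a coercive family is coercive -/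
theorem Fam.ext' {κ κ' : Type} [Fintype κ] [Fintype κ'] {ψ : κ → X → ℝ} {ψ' : κ' → X → ℝ}
    (h : G.Fam ψ) (ht : ∀ k, G.M.Tst (ψ' k)) (hl : LinearIndependent ℝ ψ')
    (hr : ∀ k, ψ k ∈ Submodule.span ℝ (range ψ')) : G.Fam ψ' := by
  obtain ⟨c, hc, h1⟩ := h.coer
  refine ⟨ht, hl, c, hc, fun u hu h2 => h1 u hu fun k => (ip_span ?_ hu.toS2 ?_ (hr k)).2⟩
  · rintro _ ⟨j, rfl⟩
    exact tst_s2 (ht j)
  · rintro _ ⟨j, rfl⟩
    exact h2 j

theorem Fam.ext {κ κ' : Type} [Fintype κ] [Fintype κ'] {ψ : κ → X → ℝ} {ψ' : κ' → X → ℝ}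
    (h : G.Fam ψ) (ht : ∀ k, G.M.Tst (ψ' k)) (hl : LinearIndependent ℝ ψ')
    (hr : range ψ ⊆ range ψ') : G.Fam ψ' :=
  h.ext' ht hl fun k => Submodule.subset_span (hr (mem_range_self k))

/-- coercive families exist; their span can be made to contain any finite set of test functions -/
theorem exists_fam' (G : Gd d ι X) (t : Finset (X → ℝ)) (ht : ∀ w ∈ t, G.M.Tst w) :
    ∃ (n : ℕ) (ψ : Fin n → X → ℝ), G.Fam ψ ∧ ∀ w ∈ t, w ∈ Submodule.span ℝ (range ψ) := by
  classical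
  have hB := G.one
  obtain ⟨s, hs, h⟩ := G.exists_small (ε := 1 / (2 * (G.B + 1))) (by positivity)
  obtain ⟨b, hb, h1, h2⟩ := exists_linearIndependent ℝ ((s ∪ t : Finset (X → ℝ)) : Set (X → ℝ))
  have hf : Finite b := (Finset.finite_toSet _).subset hb
  obtain ⟨n, ⟨e⟩⟩ := Finite.exists_equiv_fin b
  have hr : range (fun k => (e.symm k : X → ℝ)) = b := by
    rw [show (fun k => (e.symm k : X → ℝ)) = Subtype.val ∘ e.symm from rfl,
      e.symm.surjective.range_comp, Subtype.range_coe]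
  have tb : ∀ w ∈ b, G.M.Tst w := fun w hw =>
    (Finset.mem_union.1 (hb hw)).elim (hs w) (ht w)
  refine ⟨n, fun k => e.symm k, ⟨fun k => tb _ (e.symm k).2, h2.comp _ e.symm.injective, 1 / 2,
    by norm_num, fun u hu h3 => ?_⟩, fun w hw => ?_⟩
  · have h4 := h u hu fun w hw => (ip_span (s := b) (fun w hw => tst_s2 (tb w hw)) hu.toS2
      (fun w hw => by simpa using h3 (e ⟨w, hw⟩))
      (h1 ▸ Submodule.subset_span (Finset.mem_union_left t hw))).2
    rw [one_div, inv_mul_eq_div, le_div_iff₀ (by positivity)] at h4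
    have h5 := Q_self_ge hu
    nlinarith
  · rw [hr, h1]
    exact Submodule.subset_span (Finset.mem_union_right s hw)

/-- **coercive families exist** -/
theorem exists_fam (G : Gd d ι X) : ∃ (n : ℕ) (ψ : Fin n → X → ℝ), G.Fam ψ := by
  obtain ⟨n, ψ, h, -⟩ := G.exists_fam' ∅ (by simp)
  exact ⟨n, ψ, h⟩

variable {κ : Type} [Fintype κ] {ψ : κ → X → ℝ}

theorem Fam.s2 (h : G.Fam ψ) (k : κ) : G.S2 (ψ k) := tst_s2 (h.tst k)

/-- **coercivity up to the constraints** -/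
theorem Fam.coer' (h : G.Fam ψ) : ∃ c : ℝ, 0 < c ∧ ∀ u, G.H1 u →
    c * (G.n0 u + G.n1 u) ≤ G.Q u u + c⁻¹ * ∑ k, G.ip (ψ k) u ^ 2 := by
  classical
  obtain ⟨c, hc, h1⟩ := h.coer
  obtain ⟨θ, tθ, -, hθ⟩ := exists_dual h.tst h.li
  have hB : 0 < G.B := one_pos.trans_le G.one
  obtain ⟨Θ, hΘ, hΘ'⟩ : ∃ Θ : ℝ, 0 ≤ Θ ∧ Θ = ∑ k, G.n0 (θ k) + ∑ k, G.n1 (θ k) :=
    ⟨_, add_nonneg (Finset.sum_nonneg fun k _ => n0_nonneg _)
      (Finset.sum_nonneg fun k _ => n1_nonneg _), rfl⟩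
  obtain ⟨K, hK, hK'⟩ : ∃ K : ℝ, 0 < K ∧ K = (c + G.B + 4 * G.B / c * G.B) * Θ + 4 / c :=
    ⟨_, by positivity, rfl⟩
  refine ⟨K⁻¹, by positivity, fun u hu => ?_⟩
  obtain ⟨z, hh, a0, a1, a3⟩ : ∃ z, G.H1 z ∧ G.n0 z ≤ (∑ k, G.ip (ψ k) u ^ 2) * ∑ k, G.n0 (θ k) ∧
      G.n1 z ≤ (∑ k, G.ip (ψ k) u ^ 2) * ∑ k, G.n1 (θ k) ∧ ∀ j, G.ip (ψ j) z = -G.ip (ψ j) u :=
    ⟨fun p => ∑ k, (-G.ip (ψ k) u) * θ k p, h1_lc (fun k => tst_h1 (tθ k)) _,
      by simpa only [neg_sq] using n0_lc_le (fun k => tst_s2 (tθ k)) fun k => -G.ip (ψ k) u,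
      by simpa only [neg_sq] using n1_lc_le (fun k => tst_h1 (tθ k)) fun k => -G.ip (ψ k) u,
      fun j => by
        rw [ip_lc (h.s2 j) fun k => tst_s2 (tθ k)]
        simp [hθ]⟩
  have a2 := h1 _ (hu.add hh) fun j => by
    rw [ip_add (h.s2 j) hu.toS2 hh.toS2, a3, add_neg_cancel]
  have hY : 0 ≤ ∑ k, G.ip (ψ k) u ^ 2 := Finset.sum_nonneg fun _ _ => sq_nonneg _
  generalize ∑ k, G.ip (ψ k) u ^ 2 = Y at a0 a1 hY
  have b1 : G.n0 z + G.n1 z ≤ Y * Θ := by rw [hΘ', mul_add]; linarith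
  have b2 := n0_add_le (hu.add hh).toS2 (hh.const_mul (-1)).toS2
  have b3 := n1_add_le (hu.add hh) (hh.const_mul (-1))
  rw [n0_const_mul] at b2
  rw [n1_const_mul _ hh.sm] at b3
  simp only [neg_mul, one_mul, add_neg_cancel_right, even_two, Even.neg_pow, one_pow] at b2 b3
  change G.n0 u ≤ _ at b2
  change G.n1 u ≤ _ at b3
  rw [Q_add (hu.add hh) hu hh, Q_comm _ u, Q_comm _ z, Q_add hu hu hh, Q_add hh hu hh,
    Q_comm z u] at a2
  have b4 := two_abs_Q_le hu hh (t := c / (4 * G.B)) (by positivity)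
  have b5 := two_abs_Q_le hh hh one_pos
  rw [inv_div, ← mul_assoc, ← mul_assoc, show c / (4 * G.B) * G.B = c / 4 by field_simp] at b4
  have b6 : K⁻¹ ≤ c / 4 := by
    rw [← inv_div]
    exact inv_anti₀ (by positivity) (hK' ▸ le_add_of_nonneg_left (by positivity))
  have b7 := add_nonneg (n0_nonneg (G := G) u) (n1_nonneg (G := G) u)
  have b8 := mul_le_mul_of_nonneg_left b1
    (by positivity : 0 ≤ c + G.B + 4 * G.B / c * G.B)
  have b9 : 0 ≤ 4 / c * Y := by positivity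
  have b10 := mul_le_mul_of_nonneg_left (add_le_add b2 b3) hc.le
  rw [inv_inv, hK']
  rw [hK'] at b6
  nlinarith [mul_le_mul_of_nonneg_right b6 b7, le_abs_self (G.Q u z), le_abs_self (G.Q z z)]

theorem lim_Q_cut (hu : G.H1 u) (hv : G.H1 v) :
    Tendsto (fun n => G.Q u fun p => G.cut n p * v p) atTop (𝓝 (G.Q u v)) := by
  have h := (lim_cut (intg_Q hu hv) 1).add (lim_gam_cut hv.toS2 hu)
  rw [add_zero] at h
  refine h.congr fun n => ?_
  have t := G.tst_cut n
  simp only [pow_one]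
  rw [← integral_add (tst_intg (tst_mul t ((hu.sm.gam hv.sm).sub (G.smc.mul (hu.sm.mul hv.sm)))))
    (tst_intg (tst_mul' hv.sm (tst_gam t hu.sm)))]
  refine integral_congr_ae (.of_forall fun p => ?_)
  simp only [gam_comm u, gam_mul t.sm hv.sm]
  ring

theorem lim_ip_cut (hu : G.S2 u) (hv : G.S2 v) :
    Tendsto (fun n => G.ip u fun p => G.cut n p * v p) atTop (𝓝 (G.ip u v)) := by
  simpa only [ip, pow_one, mul_left_comm (u _)] using lim_cut (hu.mul hv) 1

theorem gap_alg {c K P T : ℝ} (hc : 0 < c) (hK : 0 < K) (hP : 0 ≤ P) (hT : 0 ≤ T) :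
    ∃ C : ℝ, 0 < C ∧ ∀ N Y S η q s : ℝ, 0 ≤ N → 0 ≤ Y → 0 ≤ η → c * N ≤ q + c⁻¹ * Y →
      (∀ t : ℝ, 0 < t → 2 * (q + s) ≤ t * η + t⁻¹ * (K * N)) →
      (∀ t : ℝ, 0 < t → 2 * |s| ≤ t * S + t⁻¹ * Y) → S ≤ P * η + T * N →
      N + S ≤ C * (η + Y) := by
  obtain ⟨t, ht, ht'⟩ : ∃ t : ℝ, 0 < t ∧ t * T ≤ c / 2 := ⟨c / (2 * (T + 1)), by positivity, by
    rw [div_mul_eq_mul_div, div_le_iff₀ (by positivity)]; nlinarith⟩
  obtain ⟨A, hA, hA'⟩ : ∃ A : ℝ, 0 < A ∧ A = (2 * K / c + t * P + t⁻¹ + 2 * c⁻¹) / c :=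
    ⟨_, by positivity, rfl⟩
  refine ⟨P + (T + 1) * A, by positivity, fun N Y S η q s hN hY hη h1 h2 h3 h4 => ?_⟩
  have a1 := h2 (2 * K / c) (by positivity)
  rw [inv_div, ← mul_assoc, show c / (2 * K) * K = c / 2 by field_simp] at a1
  have a2 := h3 t ht
  have a3 : N ≤ A * (η + Y) := by
    rw [hA', div_mul_eq_mul_div, le_div_iff₀ hc]
    have b1 : 0 ≤ (2 * K / c + t * P) * Y := by positivity
    have b2 : 0 ≤ (t⁻¹ + 2 * c⁻¹) * η := by positivity
    nlinarith [neg_abs_le s, mul_le_mul_of_nonneg_left h4 ht.le, mul_le_mul_of_nonneg_right ht' hN]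
  nlinarith [mul_le_mul_of_nonneg_left a3 hT, mul_nonneg hP hY]

/-- **the gap estimate** -/
theorem Fam.gap (h : G.Fam ψ) : ∃ C : ℝ, 0 < C ∧ ∀ (u : X → ℝ) (c : κ → ℝ) (η : ℝ), G.H1 u →
    (∀ v, G.M.Tst v → |G.Q u v + ∑ k, c k * G.ip (ψ k) v| ≤ η * √(G.n0 v + G.n1 v)) →
    G.n0 u + G.n1 u + ∑ k, c k ^ 2 ≤ C * (η ^ 2 + ∑ k, G.ip (ψ k) u ^ 2) := by
  classical
  obtain ⟨c₀, hc, h1⟩ := h.coer'
  obtain ⟨θ, tθ, -, hθ⟩ := exists_dual h.tst h.li
  obtain ⟨K, hK, hcut⟩ := G.exists_cut_le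
  have hB : 0 < G.B := one_pos.trans_le G.one
  have nn : ∀ v, 0 ≤ G.n0 v + G.n1 v := fun v => add_nonneg (n0_nonneg v) (n1_nonneg v)
  have hΘ : 0 ≤ ∑ k, (G.n0 (θ k) + G.n1 (θ k)) := Finset.sum_nonneg fun k _ => nn _
  obtain ⟨C, hC, h2⟩ := gap_alg (K := K + 2) (P := 2 * ∑ k, (G.n0 (θ k) + G.n1 (θ k)))
    (T := 2 * (G.B * G.B * ∑ k, (G.n0 (θ k) + G.n1 (θ k)))) hc (by positivity) (by positivity)
    (by positivity)
  refine ⟨C, hC, fun u c η hu hv => h2 _ _ _ _ (G.Q u u) (∑ k, c k * G.ip (ψ k) u) (nn u)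
    (Finset.sum_nonneg fun _ _ => sq_nonneg _) (sq_nonneg _) (h1 u hu) (fun t ht => ?_)
    (fun t ht => ?_) ?_⟩
  · refine le_of_tendsto' (((lim_Q_cut hu hu).add (tendsto_finsetSum _ fun k _ =>
      (lim_ip_cut (h.s2 k) hu.toS2).const_mul (c k))).const_mul 2) fun n => ?_
    have a1 := hv _ (tst_mul (G.tst_cut n) hu.sm)
    have a2 := two_abs_mul_le η
      (√(G.n0 (fun p => G.cut n p * u p) + G.n1 fun p => G.cut n p * u p)) ht
    rw [Real.sq_sqrt (nn _)] at a2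
    obtain ⟨a3, a4⟩ := hcut n u hu
    have a5 : G.n0 (fun p => G.cut n p * u p) + G.n1 (fun p => G.cut n p * u p) ≤
        (K + 2) * (G.n0 u + G.n1 u) := by
      nlinarith [n0_nonneg (G := G) u, mul_nonneg hK.le (n1_nonneg (G := G) u)]
    have a6 := mul_le_mul_of_nonneg_left a5 (inv_pos.2 ht).le
    linarith [le_abs_self (η * √(G.n0 (fun p => G.cut n p * u p) +
      G.n1 fun p => G.cut n p * u p)), le_of_abs_le a1]
  · rw [Finset.mul_sum, Finset.mul_sum, ← Finset.sum_add_distrib]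
    refine le_trans (mul_le_mul_of_nonneg_left (Finset.abs_sum_le_sum_abs _ _) zero_le_two) ?_
    rw [Finset.mul_sum]
    exact Finset.sum_le_sum fun a _ => two_abs_mul_le _ _ ht
  · simp only [Finset.mul_sum, Finset.sum_mul, ← Finset.sum_add_distrib]
    refine Finset.sum_le_sum fun k _ => ?_
    have a1 := hv _ (tθ k)
    simp only [hθ, mul_ite, mul_one, mul_zero, Finset.sum_ite_eq', Finset.mem_univ, if_true] at a1
    have a2 : (G.Q u (θ k) + c k) ^ 2 ≤ η ^ 2 * (G.n0 (θ k) + G.n1 (θ k)) := by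
      rw [← sq_abs, ← Real.sq_sqrt (nn (θ k)), ← mul_pow]
      exact pow_le_pow_left₀ (abs_nonneg _) a1 2
    have a3 := Q_sq_le hu (tst_h1 (tθ k))
    nlinarith [sq_nonneg (2 * G.Q u (θ k) + c k)]

end Gd

end Crest.Agent.N250.Lin

end
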