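import Crest.Agent.N222.F.Bump
import Crest.Agent.N222.F.Ker

/-!
# Row 250, linear Gaussian theory (helper22): definitions, integration by parts

`Gd` : an immersed manifold with a weight `e^F`, an exhaustion `ρ` and a bounded potential `c`
(shrinker: `F = -|x|²/4`, `ρ = |x|²`, `c = |A|² + 1/2`).
-/

set_option autoImplicit false
set_option linter.unusedSectionVars false
open MeasureTheory Set Filter Topology Function
open scoped ContDiff
open Crest.Agent.N222 Crest.Agent.N222.Imm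

noncomputable section

namespace Crest.Agent.N250.Lin

/-- Gaussian data -/
structure Gd (d : ℕ) (ι : Type) [Fintype ι] [DecidableEq ι] (X : Type) [TopologicalSpace X] where
  M : Imm d ι X
  F : X → ℝ
  ρ : X → ℝ
  c : X → ℝ
  B : ℝ
  smF : M.Sm F
  smρ : M.Sm ρ
  smc : M.Sm c
  one : 1 ≤ B
  ρ0 : ∀ p, 0 ≤ ρ p
  prop : ∀ R, IsCompact {p | ρ p ≤ R}
  gamρ : ∀ p, M.pre.gam ρ ρ p ≤ 4 * ρ p
  lapρ : ∀ p, M.pre.lapF F ρ p ≤ B - ρ p
  cle : ∀ p, |c p| ≤ B
  IIle : ∀ a b e p, |M.pre.II a b e p| ≤ B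
  Dble : ∀ a e p, |M.pre.D a (fun q => M.pre.H e q + M.pre.D e F q) p| ≤ B

variable {d : ℕ} {ι : Type} [Fintype ι] [DecidableEq ι] {X : Type} [TopologicalSpace X]
  [T2Space X] [SecondCountableTopology X] [MeasurableSpace X] [BorelSpace X]

namespace Gd

variable (G : Gd d ι X)

/-- the weighted measure -/
def nu : Measure X := G.M.mu.withDensity fun p => ENNReal.ofReal (Real.exp (G.F p))

/-- tangential derivative -/
abbrev D (a : ι) (f : X → ℝ) : X → ℝ := G.M.pre.D a f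

/-- `D_a^* = -D_a - b_a` -/
def b (a : ι) (q : X) : ℝ := G.M.pre.H a q + G.M.pre.D a G.F q

/-- drift Laplacian -/
abbrev L0 (u : X → ℝ) : X → ℝ := G.M.pre.lapF G.F u

/-- the operator -/
def L (u : X → ℝ) (p : X) : ℝ := G.L0 u p + G.c p * u p

/-- weighted pairing -/
def ip (u v : X → ℝ) : ℝ := ∫ p, u p * v p ∂G.nu

/-- `|∇u|²` -/
abbrev g1 (u : X → ℝ) : X → ℝ := G.M.pre.gam u u

/-- `|δδu|²` -/
def g2 (u : X → ℝ) (p : X) : ℝ := ∑ a, ∑ e, G.D a (G.D e u) p ^ 2

/-- `∫ u²` -/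
def n0 (u : X → ℝ) : ℝ := ∫ p, u p ^ 2 ∂G.nu

/-- `∫ |∇u|²` -/
def n1 (u : X → ℝ) : ℝ := ∫ p, G.g1 u p ∂G.nu

/-- `∫ |δδu|²` -/
def n2 (u : X → ℝ) : ℝ := ∫ p, G.g2 u p ∂G.nu

/-- smooth and square integrable -/
structure S2 (u : X → ℝ) : Prop where
  sm : G.M.Sm u
  l2 : MemLp u 2 G.nu

/-- smooth and in `H¹` -/
structure H1 (u : X → ℝ) : Prop extends G.S2 u where
  d1 : Integrable (G.g1 u) G.nu

/-- the quadratic form of `-L` -/
def Q (u v : X → ℝ) : ℝ := ∫ p, (G.M.pre.gam u v p - G.c p * (u p * v p)) ∂G.nu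

/-- independent test functions on whose annihilator `-L` is coercive -/
structure Fam {κ : Type} [Fintype κ] (ψ : κ → X → ℝ) : Prop where
  tst : ∀ k, G.M.Tst (ψ k)
  li : LinearIndependent ℝ ψ
  coer : ∃ c₀ : ℝ, 0 < c₀ ∧ ∀ u, G.H1 u → (∀ k, G.ip (ψ k) u = 0) →
    c₀ * (G.n0 u + G.n1 u) ≤ G.Q u u

theorem cF : Continuous fun p => Real.exp (G.F p) := G.smF.exp.continuous

instance : IsLocallyFiniteMeasure G.nu := IsLocallyFiniteMeasure.withDensity_ofReal G.cF

theorem mu_ac : G.M.mu ≪ G.nu :=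
  withDensity_absolutelyContinuous' G.cF.measurable.ennreal_ofReal.aemeasurable
    (.of_forall fun _ => (ENNReal.ofReal_pos.2 (Real.exp_pos _)).ne')

theorem nu_ac : G.nu ≪ G.M.mu := withDensity_absolutelyContinuous _ _

instance : G.nu.IsOpenPosMeasure := G.mu_ac.isOpenPosMeasure

theorem int_nu (f : X → ℝ) : ∫ p, f p ∂G.nu = ∫ p, f p * Real.exp (G.F p) ∂G.M.mu := by
  rw [nu, integral_withDensity_eq_integral_toReal_smul G.cF.measurable.ennreal_ofReal
    (.of_forall fun _ => ENNReal.ofReal_lt_top)]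
  refine integral_congr_ae (.of_forall fun p => ?_)
  simp only [ENNReal.toReal_ofReal (Real.exp_pos _).le, smul_eq_mul, mul_comm]

theorem intg_nu (f : X → ℝ) :
    Integrable f G.nu ↔ Integrable (fun p => f p * Real.exp (G.F p)) G.M.mu := by
  rw [nu, integrable_withDensity_iff G.cF.measurable.ennreal_ofReal
    (.of_forall fun _ => ENNReal.ofReal_lt_top)]
  simp only [ENNReal.toReal_ofReal (Real.exp_pos _).le]

variable {G} {f g u v : X → ℝ}

theorem intg (hf : Continuous f) (hc : HasCompactSupport f) : Integrable f G.nu :=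
  hf.integrable_of_hasCompactSupport hc


theorem smb (G : Gd d ι X) (a : ι) : G.M.Sm (G.b a) := (G.M.sm_H a).add (G.smF.D a)

theorem smL0 (hu : G.M.Sm u) : G.M.Sm (G.L0 u) := Sm.lapF G.smF hu

theorem smL (hu : G.M.Sm u) : G.M.Sm (G.L u) := (smL0 hu).add (G.smc.mul hu)

theorem smg1 (hu : G.M.Sm u) : G.M.Sm (G.g1 u) := hu.gam hu

theorem smg2 (hu : G.M.Sm u) : G.M.Sm (G.g2 u) :=
  sm_sum _ fun a _ => sm_sum _ fun e _ => ((hu.D e).D a).pow 2

theorem g1_eq (u : X → ℝ) (p : X) : G.g1 u p = ∑ a, G.D a u p ^ 2 := by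
  simp only [g1, gam_apply, sq]

theorem g1_nonneg (u : X → ℝ) (p : X) : 0 ≤ G.g1 u p := gam_self_nonneg _ _

theorem g2_nonneg (u : X → ℝ) (p : X) : 0 ≤ G.g2 u p :=
  Finset.sum_nonneg fun _ _ => Finset.sum_nonneg fun _ _ => sq_nonneg _


theorem n0_nonneg (u : X → ℝ) : 0 ≤ G.n0 u := integral_nonneg fun _ => sq_nonneg _
theorem n1_nonneg (u : X → ℝ) : 0 ≤ G.n1 u := integral_nonneg (g1_nonneg u)
theorem n2_nonneg (u : X → ℝ) : 0 ≤ G.n2 u := integral_nonneg (g2_nonneg u)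

theorem gam_sq_le (f g : X → ℝ) (p : X) : G.M.pre.gam f g p ^ 2 ≤ G.g1 f p * G.g1 g p := by
  simp only [g1, gam_apply, ← sq]
  exact Finset.sum_mul_sq_le_sq_mul_sq _ _ _

theorem gam_zero (g : X → ℝ) {p : X} (hp : p ∉ tsupport f) : G.M.pre.gam f g p = 0 := by
  simp only [gam_apply, D_eq_zero_of_notMem hp, zero_mul, Finset.sum_const_zero]

theorem gam_comm (f g : X → ℝ) (p : X) : G.M.pre.gam f g p = G.M.pre.gam g f p := by
  simp only [gam_apply, mul_comm]

theorem L0_zero {p : X} (hp : p ∉ tsupport f) : G.L0 f p = 0 := by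
  rw [L0, lapF_apply, lap_eq_zero_of_notMem hp, gam_comm, gam_zero _ hp, add_zero]

theorem L_zero {p : X} (hp : p ∉ tsupport f) : G.L f p = 0 := by
  rw [L, L0_zero hp, image_eq_zero_of_notMem_tsupport hp, mul_zero, add_zero]



theorem tstL (hu : G.M.Tst u) : G.M.Tst (G.L u) :=
  ⟨smL hu.sm, HasCompactSupport.intro hu.cs fun _ hp => L_zero hp⟩

theorem tst_mul (hf : G.M.Tst f) (hg : G.M.Sm g) : G.M.Tst fun p => f p * g p :=
  ⟨hf.sm.mul hg, hf.cs.mul_right⟩

theorem tst_mul' (hf : G.M.Sm f) (hg : G.M.Tst g) : G.M.Tst fun p => f p * g p :=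
  ⟨hf.mul hg.sm, hg.cs.mul_left⟩

theorem tst_s2 (hf : G.M.Tst f) : G.S2 f :=
  ⟨hf.sm, hf.sm.continuous.memLp_of_hasCompactSupport hf.cs⟩

theorem tst_intg (hf : G.M.Tst f) : Integrable f G.nu := intg hf.sm.continuous hf.cs

theorem tst_g1 (hf : G.M.Tst f) : G.M.Tst (G.g1 f) :=
  ⟨smg1 hf.sm, HasCompactSupport.intro hf.cs fun _ hp => gam_zero _ hp⟩


theorem tst_h1 (hf : G.M.Tst f) : G.H1 f := ⟨tst_s2 hf, tst_intg (tst_g1 hf)⟩

theorem tst_gam (hf : G.M.Tst f) (hg : G.M.Sm g) : G.M.Tst (G.M.pre.gam f g) :=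
  ⟨hf.sm.gam hg, HasCompactSupport.intro hf.cs fun _ hp => gam_zero _ hp⟩

theorem tst_sq (hf : G.M.Tst f) : G.M.Tst fun p => f p ^ 2 := by
  simpa only [sq] using tst_mul hf hf.sm

/-! ### pointwise calculus -/

theorem L0_eq (u : X → ℝ) (p : X) :
    G.L0 u p = ∑ a, (G.D a (G.D a u) p + G.b a p * G.D a u p) := by
  have h := H_tan (M := G.M) (tan_D u) p
  simp only [L0, lapF_apply, lap_apply, gam_apply, b, add_mul, Finset.sum_add_distrib, h, zero_add]

theorem gam_mul (hf : G.M.Sm f) (hg : G.M.Sm g) (u : X → ℝ) (p : X) :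
    G.M.pre.gam (fun q => f q * g q) u p =
      f p * G.M.pre.gam g u p + g p * G.M.pre.gam f u p := by
  simp only [gam_apply, D_mul (hf.diffAt p) (hg.diffAt p), Finset.mul_sum, ← Finset.sum_add_distrib]
  exact Finset.sum_congr rfl fun a _ => by ring

theorem L0_mul (hf : G.M.Sm f) (hg : G.M.Sm g) (p : X) : G.L0 (fun q => f q * g q) p =
    f p * G.L0 g p + 2 * G.M.pre.gam f g p + G.L0 f p * g p := by
  simp only [L0, lapF_apply, lap_mul hf hg]
  rw [gam_comm G.F, gam_mul hf hg, gam_comm g G.F, gam_comm f G.F]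
  ring

theorem L0_add (hf : G.M.Sm f) (hg : G.M.Sm g) (p : X) :
    G.L0 (fun q => f q + g q) p = G.L0 f p + G.L0 g p := by
  simp only [L0, lapF_apply, lap_add hf hg, gam_apply, D_add (hf.diffAt p) (hg.diffAt p), mul_add,
    Finset.sum_add_distrib]
  ring

theorem L0_const_mul (c : ℝ) (hf : G.M.Sm f) (p : X) :
    G.L0 (fun q => c * f q) p = c * G.L0 f p := by
  simp only [L0, lapF_apply, lap_const_mul c hf, gam_apply, D_const_mul c (hf.diffAt p), mul_add,
    Finset.mul_sum]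
  congr 1
  exact Finset.sum_congr rfl fun a _ => by ring

theorem L_add (hf : G.M.Sm f) (hg : G.M.Sm g) (p : X) :
    G.L (fun q => f q + g q) p = G.L f p + G.L g p := by
  simp only [L, L0_add hf hg]; ring

theorem L_const_mul (c : ℝ) (hf : G.M.Sm f) (p : X) :
    G.L (fun q => c * f q) p = c * G.L f p := by
  simp only [L, L0_const_mul c hf]; ring

theorem L_sub (hf : G.M.Sm f) (hg : G.M.Sm g) (p : X) :
    G.L (fun q => f q - g q) p = G.L f p - G.L g p := by
  have h := L_add hf ((sm_const (-1 : ℝ)).mul hg) p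
  rw [L_const_mul _ hg] at h
  simpa only [neg_mul, one_mul, ← sub_eq_add_neg] using h

theorem L_sum {κ : Type*} (s : Finset κ) {w : κ → X → ℝ} (hw : ∀ k, G.M.Sm (w k)) (p : X) :
    G.L (fun q => ∑ k ∈ s, w k q) p = ∑ k ∈ s, G.L (w k) p := by
  classical
  induction s using Finset.induction_on with
  | empty => simpa using L_zero (G := G) (f := fun _ => 0) (p := p) (by simp)
  | insert k s hk ih =>
    simp only [Finset.sum_insert hk]
    rw [L_add (hw k) (sm_sum _ fun j _ => hw j), ih]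


/-! ### integration by parts -/

theorem int_div (hf : G.M.Tst f) (a : ι) : ∫ p, (G.D a f p + G.b a p * f p) ∂G.nu = 0 := by
  have h := integral_D_add (hf.sm.mul G.smF.exp).c1 hf.cs.mul_right a
  rw [int_nu, ← h]
  refine integral_congr_ae (.of_forall fun p => ?_)
  simp only
  rw [D_mul (hf.sm.diffAt p) (G.smF.exp.diffAt p),
    D_comp (G.smF.diffAt p) (Real.hasDerivAt_exp _), b]
  ring

theorem int_L0 (hf : G.M.Tst f) (hg : G.M.Sm g) :
    ∫ p, f p * G.L0 g p ∂G.nu = -∫ p, G.M.pre.gam f g p ∂G.nu := by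
  rw [int_nu, int_nu]
  exact integral_mul_lapF hf.sm.c1 hf.cs hg G.smF



theorem ip_comm (u v : X → ℝ) : G.ip u v = G.ip v u := by simp only [ip, mul_comm]

end Gd

end Crest.Agent.N250.Lin

end
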