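import Crest.Agent.N250.Lin.Est
import Crest.Agent.N250.Lin.Defs
import Crest.Agent.N222.F.Coord
import Crest.Agent.N222.F.Res
import Crest.Agent.R269.GEll_19
import Crest.Agent.N250.Lin.Fam
import Crest.Agent.N222.J.LinA0

-- ▼ part N250/Lin/H2
section

/-!
# Row 250, linear Gaussian theory (helper22): the `H²` estimate
-/

set_option autoImplicit false
set_option linter.unusedSectionVars false
open MeasureTheory Set Filter Topology Function
open scoped ContDiff
open Crest.Agent.N222 Crest.Agent.N222.Imm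

noncomputable section

namespace Crest.Agent.N250.Lin

theorem abs_le_sqrt_of_sq {x y : ℝ} (h : x ^ 2 ≤ y) : |x| ≤ √y := Real.abs_le_sqrt h

/-- the algebra behind the Bochner inequality -/
theorem h2_alg {ι : Type} [Fintype ι] (T : ι → ι → ℝ) (u : ι → ℝ) (κ : ι → ι → ι → ℝ)
    (β : ι → ι → ℝ) {B : ℝ} (hB : 0 ≤ B) (hκ : ∀ a e c, |κ a e c| ≤ 2 * B) (hβ : ∀ a e, |β a e| ≤ B)
    (hT : ∀ a e, T a e - T e a = ∑ c, κ a e c * u c) :
    ∑ a, ∑ e, T a e ^ 2 ≤ 2 * (∑ a, ∑ e, (T a e * T e a + u e * (∑ c, κ a e c * T c a - β e a * u a)))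
      + (16 * B ^ 2 * (Fintype.card ι : ℝ) ^ 6 + 2 * B * (Fintype.card ι : ℝ) ^ 2) * ∑ a, u a ^ 2 := by
  set t := √(∑ a, ∑ e, T a e ^ 2) with ht
  set s := √(∑ a, u a ^ 2) with hs
  set N : ℝ := (Fintype.card ι : ℝ) with hN
  have t0 : 0 ≤ t := Real.sqrt_nonneg _
  have s0 : 0 ≤ s := Real.sqrt_nonneg _
  have t2 : t ^ 2 = ∑ a, ∑ e, T a e ^ 2 := Real.sq_sqrt (by positivity)
  have s2 : s ^ 2 = ∑ a, u a ^ 2 := Real.sq_sqrt (by positivity)
  have hTt : ∀ a e, |T a e| ≤ t := fun a e => abs_le_sqrt_of_sq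
    ((Finset.single_le_sum (f := fun e => T a e ^ 2) (fun _ _ => sq_nonneg _)
      (Finset.mem_univ e)).trans (Finset.single_le_sum (f := fun a => ∑ e, T a e ^ 2)
        (fun _ _ => by positivity) (Finset.mem_univ a)))
  have hus : ∀ a, |u a| ≤ s := fun a => abs_le_sqrt_of_sq
    (Finset.single_le_sum (f := fun a => u a ^ 2) (fun _ _ => sq_nonneg _) (Finset.mem_univ a))
  have k1 : ∀ (a e : ι) (w : ι → ℝ) (r : ℝ), (∀ c, |w c| ≤ r) → |∑ c, κ a e c * w c| ≤ N * (2 * B * r) :=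
    fun a e w r hw => (Finset.abs_sum_le_sum_abs _ _).trans (by
      refine (Finset.sum_le_card_nsmul _ _ (2 * B * r) fun c _ => ?_).trans (by
        rw [nsmul_eq_mul, Finset.card_univ])
      rw [abs_mul]
      exact mul_le_mul (hκ a e c) (hw c) (abs_nonneg _) (by positivity))
  have k2 : ∀ a e, T a e ^ 2 - (T a e * T e a + u e * (∑ c, κ a e c * T c a - β e a * u a)) ≤
      4 * B * N * (s * t) + B * s ^ 2 := fun a e => by
    have a1 : |T a e * (T a e - T e a)| ≤ t * (N * (2 * B * s)) := by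
      rw [abs_mul, hT]
      exact mul_le_mul (hTt a e) (k1 a e u s hus) (abs_nonneg _) t0
    have a2 : |u e * ∑ c, κ a e c * T c a| ≤ s * (N * (2 * B * t)) := by
      rw [abs_mul]
      exact mul_le_mul (hus e) (k1 a e (fun c => T c a) t fun c => hTt c a) (abs_nonneg _) s0
    have a3 : |u e * (β e a * u a)| ≤ s * (B * s) := by
      rw [abs_mul, abs_mul]
      exact mul_le_mul (hus e) (mul_le_mul (hβ e a) (hus a) (abs_nonneg _) hB) (by positivity) s0
    nlinarith [(abs_le.1 a1).2, (abs_le.1 a2).1, (abs_le.1 a3).2]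
  have k3 : ∑ a, ∑ e, T a e ^ 2 -
      ∑ a, ∑ e, (T a e * T e a + u e * (∑ c, κ a e c * T c a - β e a * u a)) ≤
      N * (N * (4 * B * N * (s * t) + B * s ^ 2)) := by
    rw [← Finset.sum_sub_distrib]
    refine (Finset.sum_le_card_nsmul _ _ (N * (4 * B * N * (s * t) + B * s ^ 2)) fun a _ => ?_).trans
      (by rw [nsmul_eq_mul, Finset.card_univ])
    rw [← Finset.sum_sub_distrib]
    exact (Finset.sum_le_card_nsmul _ _ _ fun e _ => k2 a e).trans
      (by rw [nsmul_eq_mul, Finset.card_univ])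
  rw [← s2]
  rw [← t2] at k3 ⊢
  nlinarith [sq_nonneg (t - 4 * B * N ^ 3 * s)]

variable {d : ℕ} {ι : Type} [Fintype ι] [DecidableEq ι] {X : Type} [TopologicalSpace X]
  [T2Space X] [SecondCountableTopology X] [MeasurableSpace X] [BorelSpace X]

namespace Gd

variable {G : Gd d ι X} {f g u v : X → ℝ}

/-- commutator of tangential derivatives -/
theorem DD_comm (hf : G.M.Sm f) (a e : ι) (p : X) : G.D a (G.D e f) p - G.D e (G.D a f) p =
    ∑ c, (G.M.pre.II a c e p - G.M.pre.II e c a p) * G.D c f p := by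
  simp only [D, DD hf, hess_symm hf a e, sub_mul, Finset.sum_sub_distrib]
  ring

/-- the Bochner field -/
def Z (G : Gd d ι X) (u : X → ℝ) (a : ι) (p : X) : ℝ :=
  ∑ e, G.D e u p * G.D e (G.D a u) p - G.D a u p * G.L0 u p

theorem smZ (hu : G.M.Sm u) (a : ι) : G.M.Sm (G.Z u a) :=
  (sm_sum _ fun e _ => (hu.D e).mul ((hu.D a).D e)).sub ((hu.D a).mul (smL0 hu))

theorem D_L0 (hu : G.M.Sm u) (e : ι) (p : X) : G.D e (G.L0 u) p =
    ∑ a, (G.D e (G.D a (G.D a u)) p + (G.b a p * G.D e (G.D a u) p + G.D e (G.b a) p * G.D a u p)) := by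
  rw [show G.L0 u = _ from funext (L0_eq u), D, D_sum _ fun a _ =>
    ((((hu.D a).D a).add ((G.smb a).mul (hu.D a))).diffAt p)]
  refine Finset.sum_congr rfl fun a _ => ?_
  rw [D_add (((hu.D a).D a).diffAt p) (((G.smb a).mul (hu.D a)).diffAt p),
    D_mul ((G.smb a).diffAt p) ((hu.D a).diffAt p)]

theorem div_Z (hu : G.M.Sm u) (p : X) : ∑ a, (G.D a (G.Z u a) p + G.b a p * G.Z u a p) =
    ∑ a, ∑ e, (G.D a (G.D e u) p * G.D e (G.D a u) p + G.D e u p *
      (∑ c, (G.M.pre.II a c e p - G.M.pre.II e c a p) * G.D c (G.D a u) p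
        - G.D e (G.b a) p * G.D a u p)) - G.L0 u p ^ 2 := by
  have e1 : ∀ a, G.D a (G.Z u a) p = ∑ e, (G.D e u p * G.D a (G.D e (G.D a u)) p +
      G.D a (G.D e u) p * G.D e (G.D a u) p) -
      (G.D a u p * G.D a (G.L0 u) p + G.D a (G.D a u) p * G.L0 u p) := fun a => by
    unfold Z
    rw [D, D_sub ((sm_sum _ fun e _ => (hu.D e).mul ((hu.D a).D e)).diffAt p)
      (((hu.D a).mul (smL0 hu)).diffAt p), D_mul ((hu.D a).diffAt p) ((smL0 hu).diffAt p),
      D_sum _ fun e _ => ((hu.D e).mul ((hu.D a).D e)).diffAt p]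
    congr 1
    exact Finset.sum_congr rfl fun e _ => D_mul ((hu.D e).diffAt p) (((hu.D a).D e).diffAt p) a
  have e2 : G.L0 u p ^ 2 = ∑ a, (G.D a (G.D a u) p + G.b a p * G.D a u p) * G.L0 u p := by
    rw [← Finset.sum_mul, ← L0_eq, sq]
  have e3 : ∑ a, G.D a u p * G.D a (G.L0 u) p = ∑ a, ∑ e, G.D e u p * (G.D e (G.D a (G.D a u)) p +
      (G.b a p * G.D e (G.D a u) p + G.D e (G.b a) p * G.D a u p)) := by
    rw [Finset.sum_comm]
    exact Finset.sum_congr rfl fun e _ => by rw [D_L0 hu, Finset.mul_sum]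
  have e4 : ∑ a, (G.D a (G.Z u a) p + G.b a p * G.Z u a p) =
      ∑ a, ∑ e, (G.D e u p * G.D a (G.D e (G.D a u)) p + G.D a (G.D e u) p * G.D e (G.D a u) p +
        G.b a p * (G.D e u p * G.D e (G.D a u) p)) - ∑ a, G.D a u p * G.D a (G.L0 u) p -
        ∑ a, (G.D a (G.D a u) p + G.b a p * G.D a u p) * G.L0 u p := by
    rw [← Finset.sum_sub_distrib, ← Finset.sum_sub_distrib]
    refine Finset.sum_congr rfl fun a _ => ?_
    rw [e1, Z, mul_sub, Finset.mul_sum, Finset.sum_add_distrib (f := fun e => _ + _)]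
    ring
  rw [e4, e2, e3, ← Finset.sum_sub_distrib]
  congr 1
  refine Finset.sum_congr rfl fun a _ => ?_
  rw [← Finset.sum_sub_distrib]
  refine Finset.sum_congr rfl fun e _ => ?_
  rw [← DD_comm (hu.D a) a e p]
  ring

/-- the constant of the `H²` estimate -/
def C2 (G : Gd d ι X) : ℝ :=
  16 * G.B ^ 2 * (Fintype.card ι : ℝ) ^ 6 + 2 * G.B * (Fintype.card ι : ℝ) ^ 2

theorem C2_nonneg (G : Gd d ι X) : 0 ≤ G.C2 := by
  have := G.one
  unfold C2
  positivity

theorem g2_le (hu : G.M.Sm u) (p : X) : G.g2 u p ≤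
    2 * ∑ a, (G.D a (G.Z u a) p + G.b a p * G.Z u a p) + 2 * G.L0 u p ^ 2 + G.C2 * G.g1 u p := by
  have h := h2_alg (fun a e => G.D a (G.D e u) p) (fun a => G.D a u p)
    (fun a e c => G.M.pre.II a c e p - G.M.pre.II e c a p) (fun e a => G.D e (G.b a) p)
    (B := G.B) (by linarith [G.one]) (fun a e c => (abs_sub _ _).trans (by
      linarith [G.IIle a c e p, G.IIle e c a p])) (fun a e => G.Dble a e p)
    fun a e => DD_comm hu a e p
  rw [div_Z hu, g1_eq, g2, C2]
  linarith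

/-- **local `H²` estimate** -/
theorem h2_loc {η : X → ℝ} (hη : G.M.Tst η) (hu : G.M.Sm u) :
    ∫ p, η p ^ 2 * G.g2 u p ∂G.nu ≤ ∫ p, (8 * (η p ^ 2 * G.L0 u p ^ 2) +
      2 * G.C2 * (η p ^ 2 * G.g1 u p) + 20 * (G.g1 η p * G.g1 u p)) ∂G.nu := by
  have tJ : ∀ a, G.M.Tst fun p => η p ^ 2 * G.Z u a p := fun a => tst_mul (tst_sq hη) (smZ hu a)
  have iJ : ∀ a, Integrable (fun p => G.D a (fun p => η p ^ 2 * G.Z u a p) p +
      G.b a p * (η p ^ 2 * G.Z u a p)) G.nu := fun a =>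
    (tst_intg ((tJ a).D a)).add (tst_intg (tst_mul' (G.smb a) (tJ a)))
  have h0 : ∫ p, ∑ a, (G.D a (fun p => η p ^ 2 * G.Z u a p) p +
      G.b a p * (η p ^ 2 * G.Z u a p)) ∂G.nu = 0 := by
    rw [integral_finsetSum _ fun a _ => iJ a]
    exact Finset.sum_eq_zero fun a _ => int_div (tJ a) a
  have iR : Integrable (fun p => 8 * (η p ^ 2 * G.L0 u p ^ 2) +
      2 * G.C2 * (η p ^ 2 * G.g1 u p) + 20 * (G.g1 η p * G.g1 u p)) G.nu :=
    (((tst_intg (tst_mul (tst_sq hη) ((smL0 hu).pow 2))).const_mul _).add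
      ((tst_intg (tst_mul (tst_sq hη) (smg1 hu))).const_mul _)).add
      ((tst_intg (tst_mul (tst_g1 hη) (smg1 hu))).const_mul _)
  have iS := integrable_finsetSum Finset.univ fun a _ => iJ a
  rw [← add_zero (∫ p, (8 * _ + _ + _) ∂G.nu), ← mul_zero (4 : ℝ), ← h0, ← integral_const_mul,
    ← integral_add iR (iS.const_mul 4)]
  refine integral_mono (tst_intg (tst_mul (tst_sq hη) (smg2 hu))) (iR.add (iS.const_mul 4))
    fun p => ?_
  have e1 : ∀ a, G.M.pre.D a (fun p => η p ^ 2) p = 2 * η p * G.D a η p := fun a => by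
    simp only [sq]
    rw [D_mul (hη.sm.diffAt p) (hη.sm.diffAt p)]; ring
  have e2 : ∑ a, (G.D a (fun p => η p ^ 2 * G.Z u a p) p + G.b a p * (η p ^ 2 * G.Z u a p)) =
      η p ^ 2 * ∑ a, (G.D a (G.Z u a) p + G.b a p * G.Z u a p) + 2 * η p *
        (∑ q : ι × ι, (G.D q.1 η p * G.D q.2 u p) * G.D q.2 (G.D q.1 u) p -
          G.M.pre.gam η u p * G.L0 u p) := by
    rw [Fintype.sum_prod_type, gam_apply, Finset.sum_mul, ← Finset.sum_sub_distrib, Finset.mul_sum,
      Finset.mul_sum, ← Finset.sum_add_distrib]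
    refine Finset.sum_congr rfl fun a _ => ?_
    rw [D, D_mul ((hη.sm.pow 2).diffAt p) ((smZ hu a).diffAt p), e1]
    have : ∑ e, (G.D a η p * G.D e u p) * G.D e (G.D a u) p =
        G.D a η p * ∑ e, G.D e u p * G.D e (G.D a u) p := by
      rw [Finset.mul_sum]; exact Finset.sum_congr rfl fun e _ => by ring
    simp only [this, Z]
    ring
  have c1 : (∑ q : ι × ι, (G.D q.1 η p * G.D q.2 u p) * G.D q.2 (G.D q.1 u) p) ^ 2 ≤
      (G.g1 η p * G.g1 u p) * G.g2 u p := by
    refine (Finset.sum_mul_sq_le_sq_mul_sq _ _ _).trans (le_of_eq ?_)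
    congr 1
    · rw [Fintype.sum_prod_type, g1_eq, g1_eq, Finset.sum_mul_sum]
      simp only [mul_pow]
    · rw [Fintype.sum_prod_type, g2, Finset.sum_comm]
  have c2 := gam_sq_le (G := G) η u p
  have h3 := mul_le_mul_of_nonneg_left (g2_le hu p) (sq_nonneg (η p))
  simp only [e2]
  set S := ∑ q : ι × ι, (G.D q.1 η p * G.D q.2 u p) * G.D q.2 (G.D q.1 u) p
  set W := G.g1 η p * G.g1 u p
  have w0 : 0 ≤ W := mul_nonneg (g1_nonneg _ _) (g1_nonneg _ _)
  have a1 := mul_nonneg (sq_nonneg (η p)) (g2_nonneg (G := G) u p)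
  have c3 : |8 * (η p * S)| ≤ η p ^ 2 * G.g2 u p + 16 * W := by
    refine abs_le_of_sq_le_sq ?_ (by positivity)
    nlinarith [mul_le_mul_of_nonneg_left c1 (sq_nonneg (η p)),
      sq_nonneg (η p ^ 2 * G.g2 u p - 16 * W)]
  have c4 : 8 * (η p * G.M.pre.gam η u p * G.L0 u p) ≤ 4 * (η p ^ 2 * G.L0 u p ^ 2) + 4 * W := by
    nlinarith [sq_nonneg (η p * G.L0 u p - G.M.pre.gam η u p)]
  nlinarith [(abs_le.1 c3).1]

/-- **global `H²` estimate** -/
theorem h2 (G : Gd d ι X) : ∃ C : ℝ, 0 < C ∧ ∀ u, G.S2 u → G.S2 (G.L0 u) →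
    Integrable (G.g2 u) G.nu ∧ G.n2 u ≤ C * (G.n0 (G.L0 u) + G.n1 u) := by
  obtain ⟨K, hK, h⟩ := G.exists_g1_cut
  have hC := G.C2_nonneg
  refine ⟨8 + 2 * G.C2 + 20 * K, by positivity, fun u hu hL => intg_of_cut (smg2 hu.sm).continuous
    (g2_nonneg u) fun n => (h2_loc (G.tst_cut n) hu.sm).trans ?_⟩
  have h1 := hu.h1' hL
  have t := G.tst_cut n
  rw [n0, n1, ← integral_add hL.sq h1.d1, ← integral_const_mul]
  refine integral_mono ((((tst_intg (tst_mul (tst_sq t) ((smL0 hu.sm).pow 2))).const_mul _).add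
      ((tst_intg (tst_mul (tst_sq t) (smg1 hu.sm))).const_mul _)).add
      ((tst_intg (tst_mul (tst_g1 t) (smg1 hu.sm))).const_mul _))
    ((hL.sq.add h1.d1).const_mul _) fun p => ?_
  have a1 : G.g1 (G.cut n) p ≤ K := (h n p).trans (div_le_self hK.le (by
    have : (0 : ℝ) ≤ n := n.cast_nonneg
    linarith))
  have a2 : G.cut n p ^ 2 ≤ 1 := pow_le_one₀ (cut_nonneg n p) (cut_le n p)
  have a3 := g1_nonneg (G := G) u p
  have a4 := sq_nonneg (G.L0 u p)
  simp only
  nlinarith [mul_le_mul_of_nonneg_right a1 a3, mul_le_mul_of_nonneg_right a2 a3,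
    mul_le_mul_of_nonneg_right a2 a4, mul_nonneg hC a4, mul_nonneg hK.le a4,
    mul_le_mul_of_nonneg_left (mul_le_mul_of_nonneg_right a2 a3) hC]

end Gd

end Crest.Agent.N250.Lin

end
end

-- ▼ part N250/Lin/Weyl
section

/-!
# Row 250, linear Gaussian theory (helper22): Weyl's lemma on a non-compact immersed manifold
(adapted from `N222/J/LinA`)
-/

set_option autoImplicit false
set_option linter.unusedSectionVars false
open MeasureTheory Set Filter Topology Function Metric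
open scoped ContDiff
open Crest.GeometryTopology.CoordMetric
open Crest.Agent.R202.Ell (divA tsupport_divA_subset)
open Crest.Agent.R269.GEll_19 (gen_ell Wk)
open Crest.Agent.N222 Crest.Agent.N222.Imm

noncomputable section

namespace Crest.Agent.N250.Lin

namespace Wy

section Euclid

open Crest.Agent.R202.Tens Crest.Agent.R247.Bo84

variable {n : ℕ} {g : MetricField n} {U : Set (E (Fin n))}

/-- the coefficient matrix `√det g · g⁻¹` -/
def cA (g : MetricField n) (y : E (Fin n)) : Matrix (Fin n) (Fin n) ℝ :=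
  Real.sqrt (g y).det • inverseField g y

theorem cA_apply (g : MetricField n) (y : E (Fin n)) (i j : Fin n) :
    cA g y i j = Real.sqrt (g y).det * inverseField g y i j := rfl

theorem lap_eq_divA (g : MetricField n) (f : E (Fin n) → ℝ) (x : E (Fin n)) :
    laplaceBeltrami g f x = (1 / Real.sqrt (g x).det) * divA (cA g) f x := by
  unfold laplaceBeltrami divA
  congr 1
  refine Finset.sum_congr rfl fun i _ => ?_
  congr 1
  funext y
  rw [Finset.mul_sum]
  exact Finset.sum_congr rfl fun j _ => by rw [cA_apply]; ring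

theorem divA_eq (hg : IsRiemannianOn g U) {x : E (Fin n)} (hx : x ∈ U) (f : E (Fin n) → ℝ) :
    divA (cA g) f x = Real.sqrt (g x).det * laplaceBeltrami g f x := by
  have h : 0 < Real.sqrt (g x).det := Real.sqrt_pos.2 (det_pos hg hx)
  rw [lap_eq_divA]
  field_simp

theorem cA_smooth (hg : IsRiemannianOn g U) (i j : Fin n) :
    ContDiffOn ℝ ∞ (fun y => cA g y i j) U := fun _ hx =>
  ((contDiffAt_sqrt_det hg hx).mul (contDiffAt_inv hg hx i j)).contDiffWithinAt

theorem cA_posDef (hg : IsRiemannianOn g U) {x : E (Fin n)} (hx : x ∈ U) : (cA g x).PosDef :=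
  (hg.posDef x hx).inv.smul (Real.sqrt_pos.2 (det_pos hg hx))

theorem divA_zero_off (A : E (Fin n) → Matrix (Fin n) (Fin n) ℝ) {f : E (Fin n) → ℝ}
    {x : E (Fin n)} (hx : x ∉ tsupport f) : divA A f x = 0 :=
  image_eq_zero_of_notMem_tsupport fun h => hx (tsupport_divA_subset A f h)

theorem lb_congr (g : MetricField n) {u v : E (Fin n) → ℝ} {x : E (Fin n)}
    (h : u =ᶠ[𝓝 x] v) : laplaceBeltrami g u x = laplaceBeltrami g v x := by
  unfold laplaceBeltrami pderiv
  congr 1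
  refine Finset.sum_congr rfl fun i _ => ?_
  congr 1
  refine Filter.EventuallyEq.fderiv_eq ?_
  filter_upwards [h.eventuallyEq_nhds] with y hy
  simp only [hy.fderiv_eq]

end Euclid

variable {d : ℕ} {ι : Type} [Fintype ι] [DecidableEq ι] {X : Type} [TopologicalSpace X]
  [T2Space X] [SecondCountableTopology X] [MeasurableSpace X] [BorelSpace X]
  {M : Imm d ι X} {q f u : X → ℝ} {e : OpenPartialHomeomorph X (E (Fin d))}

theorem lap_of_ev (he : IsChart M.x e) {p : X} (hp : p ∈ e.source) {y : X → ℝ}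
    {v : E (Fin d) → ℝ} (hv : ContDiffAt ℝ ∞ v (e p)) (h : y ∘ e.symm =ᶠ[𝓝 (e p)] v) :
    M.pre.lap y p = laplaceBeltrami (gram (M.x ∘ e.symm)) v (e p) := by
  rw [lap_coord he hp ((hv.congr_of_eventuallyEq h).of_le R247.Bo84.two_le_infty), lb_congr _ h]

theorem loc_int0 (he : IsChart M.x e) (hu : Integrable u M.mu) :
    LocallyIntegrableOn (fun z => u (e.symm z)) e.target := by
  have h1 := ((integrableOn_chart he u).1 hu.integrableOn).locallyIntegrableOn.continuousOn_mul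
    ((continuousOn_jac he).inv₀ fun z hz => (jac_pos (he.inj z hz)).ne')
    e.open_target.isLocallyClosed
  rw [locallyIntegrableOn_iff e.open_target.isLocallyClosed] at h1 ⊢
  refine fun K hK hc => (h1 K hK hc).congr_fun (fun z hz => ?_) hc.measurableSet
  exact inv_mul_cancel_left₀ (jac_pos (he.inj z (hK hz))).ne' _

theorem loc_int (he : IsChart M.x e) (hu : LocallyIntegrable u M.mu) :
    LocallyIntegrableOn (fun z => u (e.symm z)) e.target := by
  rw [locallyIntegrableOn_iff e.open_target.isLocallyClosed]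
  intro K hK hc
  have h1 : IsCompact (e.symm '' K) := hc.image_of_continuousOn (e.continuousOn_symm.mono hK)
  have h2 := loc_int0 he ((integrable_indicator_iff h1.measurableSet).2
    (hu.integrableOn_isCompact h1))
  rw [locallyIntegrableOn_iff e.open_target.isLocallyClosed] at h2
  exact (h2 K hK hc).congr_fun (fun z hz => indicator_of_mem (mem_image_of_mem _ hz) _)
    hc.measurableSet

theorem ae_back (he : IsChart M.x e) (hu : AEStronglyMeasurable u M.mu) {v : E (Fin d) → ℝ}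
    (hv : ContinuousOn v e.target) (h : ∀ᵐ z, z ∈ e.target → v z = u (e.symm z)) :
    (fun p => v (e p)) =ᵐ[M.mu.restrict e.source] u := by
  have m1 : AEStronglyMeasurable (fun p => v (e p) - u p) (M.mu.restrict e.source) :=
    ((hv.comp e.continuousOn e.mapsTo).aestronglyMeasurable e.open_source.measurableSet).sub
      hu.restrict
  have h1 : ∫⁻ p in e.source, ‖v (e p) - u p‖ₑ ∂M.mu = 0 := by
    rw [setLIntegral_chart he]
    refine lintegral_eq_zero_of_ae_eq_zero ?_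
    filter_upwards [ae_restrict_of_ae h, ae_restrict_mem e.open_target.measurableSet] with z h1 hz
    simp [e.right_inv hz, h1 hz]
  filter_upwards [(lintegral_eq_zero_iff' m1.enorm).1 h1] with p hp
  simpa [sub_eq_zero] using hp

/-- regularity in one chart -/
theorem reg (he : IsChart M.x e) (hq : M.Sm q) (hf : M.Sm f) (hu : LocallyIntegrable u M.mu)
    (h : ∀ φ, M.Tst φ → ∫ p, u p * (-M.pre.lap φ p + q p * φ p) ∂M.mu = ∫ p, f p * φ p ∂M.mu) :
    ∃ v : E (Fin d) → ℝ, ContDiffOn ℝ ∞ v e.target ∧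
      (fun p => v (e p)) =ᵐ[M.mu.restrict e.source] u ∧ ∀ p ∈ e.source,
        -laplaceBeltrami (gram (M.x ∘ e.symm)) v (e p) + q p * v (e p) = f p := by
  have hg := he.isRiemannianOn
  have hJ : ContDiffOn ℝ ∞ (fun z => √(gram (M.x ∘ e.symm) z).det) e.target := fun z hz =>
    (R247.Bo84.contDiffAt_sqrt_det hg hz).contDiffWithinAt
  obtain ⟨v, hv, hvu, hve⟩ := gen_ell (U := e.target) (a := cA (gram (M.x ∘ e.symm)))
    (b := fun _ _ => 0) (c := fun z => -(√(gram (M.x ∘ e.symm) z).det * q (e.symm z)))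
    ⟨e.open_target, cA_smooth hg, fun _ hz => cA_posDef hg hz, fun _ => contDiffOn_const,
      (hJ.mul (hq.chart he)).neg⟩
    (f := fun z => -(√(gram (M.x ∘ e.symm) z).det * f (e.symm z))) (hJ.mul (hf.chart he)).neg
    (loc_int he hu) (by
      intro φ h1 h2 h3
      have a1 : ∀ z ∈ e.target, push e.symm φ (e.symm z) = φ z := fun z hz => push_apply φ hz
      have a2 : tsupport (push e.symm φ) ⊆ e.source := by
        rw [tsupport_push h2 h3]
        rintro _ ⟨z, hz, rfl⟩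
        exact e.map_target (h3 hz)
      have a3 : ∀ z ∈ e.target, push e.symm φ ∘ e.symm =ᶠ[𝓝 z] φ := fun z hz =>
        eventually_of_mem (e.open_target.mem_nhds hz) a1
      have a4 : M.Sm (push e.symm φ) := (smOn_of_chart he subset_rfl fun p hp =>
        h1.contDiffAt.congr_of_eventuallyEq (a3 _ (e.map_source hp))).sm_of_tsupport a2
      have a4' : HasCompactSupport (push e.symm φ) := by
        rw [HasCompactSupport, tsupport_push h2 h3]
        exact h2.isCompact.image_of_continuousOn (e.continuousOn_symm.mono h3)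
      have a5 : ∀ z ∈ e.target, M.pre.lap (push e.symm φ) (e.symm z) =
          laplaceBeltrami (gram (M.x ∘ e.symm)) φ z := fun z hz => by
        rw [lap_of_ev he (e.map_target hz) h1.contDiffAt (a3 _ (e.map_source (e.map_target hz))),
          e.right_inv hz]
      have a6 := h _ ⟨a4, a4'⟩
      rw [integral_chart he, integral_chart he] at a6
      · rw [← setIntegral_eq_integral_of_forall_compl_eq_zero (s := e.target),
          ← setIntegral_eq_integral_of_forall_compl_eq_zero (s := e.target)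
            (f := fun z => -(_ * _) * φ z), ← neg_inj, ← integral_neg, ← integral_neg]
        · refine (setIntegral_congr_fun e.open_target.measurableSet fun z hz => ?_).trans
            (a6.trans (setIntegral_congr_fun e.open_target.measurableSet fun z hz => ?_))
          · simp only [Wk, divA_eq hg hz, a1 z hz, a5 z hz, jac_eq_sqrt_det, zero_mul, pderiv,
              fderiv_fun_const, smul_eq_mul, Pi.zero_apply, zero_apply, Finset.sum_const_zero]
            ring
          · simp only [a1 z hz, jac_eq_sqrt_det, smul_eq_mul]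
            ring
        · intro z hz
          rw [image_eq_zero_of_notMem_tsupport fun h => hz (h3 h), mul_zero]
        · intro z hz
          simp [Wk, divA_zero_off _ fun h => hz (h3 h), pderiv,
            image_eq_zero_of_notMem_tsupport fun h => hz (h3 h)]
      · intro p hp
        by_contra h0
        exact hp (by simp [image_eq_zero_of_notMem_tsupport fun h => h0 (a2 h)])
      · intro p hp
        by_contra h0
        exact hp (by simp [image_eq_zero_of_notMem_tsupport fun h => h0 (a2 h),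
          lap_eq_zero_of_notMem fun h => h0 (a2 h)]))
  refine ⟨v, hv, ae_back he hu.aestronglyMeasurable hv.continuousOn hvu, fun p hp => ?_⟩
  have hz := e.map_source hp
  have b1 := hve _ hz
  have b2 : 0 < √(gram (M.x ∘ e.symm) (e p)).det :=
    jac_eq_sqrt_det (M.x ∘ e.symm) _ ▸ jac_pos (he.inj _ hz)
  simp only [divA_eq hg hz, zero_mul, Finset.sum_const_zero, e.left_inv hp] at b1
  refine mul_left_cancel₀ b2.ne' ?_
  linarith

/-- **Weyl's lemma** for `-Δ + q` -/
theorem weyl0 (hq : M.Sm q) (hf : M.Sm f) (hu : LocallyIntegrable u M.mu)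
    (h : ∀ φ, M.Tst φ → ∫ p, u p * (-M.pre.lap φ p + q p * φ p) ∂M.mu = ∫ p, f p * φ p ∂M.mu) :
    ∃ y, M.Sm y ∧ y =ᵐ[M.mu] u ∧ ∀ p, -M.pre.lap y p + q p * y p = f p := by
  choose v hv hvu hve using fun p => reg (M.isChart p) hq hf hu h
  have hc : ∀ p, ContinuousOn (fun z => v p (M.ch p z)) (M.ch p).source := fun p =>
    (hv p).continuousOn.comp (M.ch p).continuousOn (M.ch p).mapsTo
  have h1 : ∀ p, ∀ z ∈ (M.ch p).source, v z (M.ch z z) = v p (M.ch p z) := fun p z hz =>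
    Measure.eqOn_open_of_ae_eq (μ := M.mu) (U := (M.ch z).source ∩ (M.ch p).source)
      (EventuallyEq.trans (ae_restrict_of_ae_restrict_of_subset inter_subset_left (hvu z))
        (EventuallyEq.symm (ae_restrict_of_ae_restrict_of_subset inter_subset_right (hvu p))))
      ((M.ch z).open_source.inter (M.ch p).open_source) ((hc z).mono inter_subset_left)
      ((hc p).mono inter_subset_right) ⟨M.mem z, hz⟩
  have h2 : ∀ p, (fun z => v z (M.ch z z)) ∘ (M.ch p).symm =ᶠ[𝓝 (M.ch p p)] v p := fun p => by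
    filter_upwards [(M.ch p).open_target.mem_nhds ((M.ch p).map_source (M.mem p))] with z hz
    rw [comp_apply, h1 p _ ((M.ch p).map_target hz), (M.ch p).right_inv hz]
  have h3 : ∀ p, ContDiffAt ℝ ∞ (v p) (M.ch p p) := fun p =>
    (hv p).contDiffAt ((M.ch p).open_target.mem_nhds ((M.ch p).map_source (M.mem p)))
  have hy : M.Sm fun z => v z (M.ch z z) :=
    sm_of_charts fun p => ⟨M.ch p, M.isChart p, M.mem p, (h3 p).congr_of_eventuallyEq (h2 p)⟩
  refine ⟨_, hy, ?_, fun p => ?_⟩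
  · obtain ⟨s, hs, hs'⟩ := TopologicalSpace.countable_cover_nhds
      (f := fun p => (M.ch p).source) fun p => (M.ch p).open_source.mem_nhds (M.mem p)
    have h4 : ∀ᵐ z ∂M.mu, ∀ p ∈ s, z ∈ (M.ch p).source → v p (M.ch p z) = u z :=
      (ae_ball_iff hs).2 fun p _ => (ae_restrict_iff' (M.ch p).open_source.measurableSet).1 (hvu p)
    filter_upwards [h4] with z hz
    obtain ⟨p, hp, hz'⟩ := mem_iUnion₂.1 (hs'.symm ▸ mem_univ z : z ∈ ⋃ p ∈ s, (M.ch p).source)
    rw [h1 p z hz', hz p hp hz']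
  · rw [lap_of_ev (M.isChart p) (M.mem p) (h3 p) (h2 p)]
    exact hve p p (M.mem p)

end Wy

variable {d : ℕ} {ι : Type} [Fintype ι] [DecidableEq ι] {X : Type} [TopologicalSpace X]
  [T2Space X] [SecondCountableTopology X] [MeasurableSpace X] [BorelSpace X]

namespace Gd

variable {G : Gd d ι X} {g u : X → ℝ}

theorem locInt_mu (hu : LocallyIntegrable u G.nu) : LocallyIntegrable u G.M.mu := by
  have := locallyCompact (M := G.M)
  rw [locallyIntegrable_iff]
  intro K hK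
  have h1 := (G.intg_nu _).1 ((integrable_indicator_iff hK.measurableSet).2
    (hu.integrableOn_isCompact hK))
  have h2 := h1.integrableOn.mul_continuousOn (G.smF.neg.exp.continuous.continuousOn) hK
  refine h2.congr_fun (fun p hp => ?_) hK.measurableSet
  simp only [indicator_of_mem hp, mul_assoc, ← Real.exp_add, add_neg_cancel, Real.exp_zero, mul_one]

theorem L_conj {θ : X → ℝ} (hθ : G.M.Sm θ) (p : X) :
    G.L (fun q => Real.exp (-(G.F q / 2)) * θ q) p = Real.exp (-(G.F p / 2)) * G.M.pre.lap θ p +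
      G.L (fun q => Real.exp (-(G.F q / 2))) p * θ p := by
  have hE : G.M.Sm fun q => Real.exp (-(G.F q / 2)) :=
    G.smF.comp (g := fun s => Real.exp (-(s / 2))) (by fun_prop)
  have e : ∀ a, G.M.pre.D a (fun q => Real.exp (-(G.F q / 2))) p =
      Real.exp (-(G.F p / 2)) * (-(1 / 2)) * G.M.pre.D a G.F p := fun a =>
    D_comp (G.smF.diffAt p) (g := fun s => Real.exp (-(s / 2)))
      ((hasDerivAt_id _).div_const 2).neg.exp a
  have e2 : G.M.pre.gam (fun q => Real.exp (-(G.F q / 2))) θ p =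
      Real.exp (-(G.F p / 2)) * (-(1 / 2)) * G.M.pre.gam G.F θ p := by
    simp only [gam_apply, e, Finset.mul_sum, mul_assoc]
  rw [L, L0_mul hE hθ, e2, L, L0, lapF_apply]
  ring

/-- **Weyl's lemma** : very weak solutions are smooth -/
theorem weyl (hg : G.M.Sm g) (hu : LocallyIntegrable u G.nu)
    (h : ∀ φ, G.M.Tst φ → G.ip u (G.L φ) = G.ip g φ) :
    ∃ y, G.M.Sm y ∧ y =ᵐ[G.nu] u ∧ ∀ p, G.L y p = g p := by
  have := locallyCompact (M := G.M)
  have hE : G.M.Sm fun q => Real.exp (-(G.F q / 2)) :=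
    G.smF.comp (g := fun s => Real.exp (-(s / 2))) (by fun_prop)
  have hE' : G.M.Sm fun q => Real.exp (G.F q / 2) :=
    G.smF.comp (g := fun s => Real.exp (s / 2)) (by fun_prop)
  have e1 : ∀ p, Real.exp (G.F p) = Real.exp (G.F p / 2) * Real.exp (G.F p / 2) := fun p => by
    rw [← Real.exp_add, add_halves]
  have e2 : ∀ p, Real.exp (-(G.F p / 2)) * Real.exp (G.F p / 2) = 1 := fun p => by
    rw [← Real.exp_add, neg_add_cancel, Real.exp_zero]
  obtain ⟨y, hy, hyu, he⟩ := Wy.weyl0 (M := G.M) (u := fun p => u p * Real.exp (G.F p / 2))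
    ((smL hE).mul hE').neg (hg.mul hE').neg ((locInt_mu hu).mul_continuous hE'.continuous)
    fun θ hθ => by
      have h1 := h _ (tst_mul' hE hθ)
      simp only [ip, int_nu, L_conj hθ.sm] at h1
      rw [← neg_inj, ← integral_neg, ← integral_neg] at h1
      refine Eq.trans (integral_congr_ae (.of_forall fun p => ?_))
        (h1.trans (integral_congr_ae (.of_forall fun p => ?_)))
      · simp only [e1 p]
        linear_combination (u p * Real.exp (G.F p / 2) * G.M.pre.lap θ p) * e2 p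
      · simp only [e1 p]
        linear_combination (-(g p * Real.exp (G.F p / 2) * θ p)) * e2 p
  refine ⟨_, hE.mul hy, G.nu_ac.ae_le ?_, fun p => ?_⟩
  · filter_upwards [hyu] with p hp
    simp only [hp]
    linear_combination u p * e2 p
  · rw [L_conj hy]
    have := he p
    linear_combination (-Real.exp (-(G.F p / 2))) * this + (g p -
      G.L (fun q => Real.exp (-(G.F q / 2))) p * y p) * e2 p

end Gd

end Crest.Agent.N250.Lin

end
end

-- ▼ part N250/Lin/Green

/-!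
# Row 250, linear Gaussian theory (helper22): the Green operator
-/

set_option autoImplicit false
set_option linter.unusedSectionVars false
open MeasureTheory Set Filter Topology Function
open scoped ContDiff InnerProductSpace RealInnerProductSpace
open Crest.Agent.N222 Crest.Agent.N222.Imm

noncomputable section

namespace Crest.Agent.N250.Lin

variable {d : ℕ} {ι : Type} [Fintype ι] [DecidableEq ι] {X : Type} [TopologicalSpace X]
  [T2Space X] [SecondCountableTopology X] [MeasurableSpace X] [BorelSpace X]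

namespace Gd

/-- smooth square integrable functions -/
def SS (G : Gd d ι X) : Submodule ℝ (X → ℝ) where
  carrier := {u | G.S2 u}
  add_mem' hu hv := S2.add hu hv
  zero_mem' := ⟨sm_const 0, MemLp.zero⟩
  smul_mem' c _ hu := S2.const_mul hu c

/-- test functions -/
def TT (G : Gd d ι X) : Submodule ℝ (X → ℝ) where
  carrier := {u | G.M.Tst u}
  add_mem' hu hv := ⟨hu.sm.add hv.sm, hu.cs.add hv.cs⟩
  zero_mem' := ⟨sm_const 0, HasCompactSupport.zero⟩
  smul_mem' c _ hu := tst_mul' (sm_const c) hu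


/-- the class in `L²` -/
def toL (G : Gd d ι X) : G.SS →ₗ[ℝ] Lp ℝ 2 G.nu where
  toFun u := MemLp.toLp u.1 (S2.l2 u.2)
  map_add' u v := MemLp.toLp_add (S2.l2 u.2) (S2.l2 v.2)
  map_smul' c u := MemLp.toLp_const_smul c (S2.l2 u.2)

variable {G : Gd d ι X} {f g u v w : X → ℝ} {κ : Type} [Fintype κ] {ψ : κ → X → ℝ}

theorem inner_toL (w : Lp ℝ 2 G.nu) (v : G.SS) : ⟪w, G.toL v⟫ = G.ip w v.1 := by
  rw [L2.inner_def]
  refine integral_congr_ae ?_
  filter_upwards [MemLp.coeFn_toLp (S2.l2 v.2)] with p hp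
  rw [show G.toL v p = v.1 p from hp, RCLike.inner_apply, conj_trivial, mul_comm]

theorem ip_congr (h : u =ᵐ[G.nu] w) (v : X → ℝ) : G.ip u v = G.ip w v :=
  integral_congr_ae (h.mono fun p hp => by simp only [hp])

theorem inner_toL' (u v : G.SS) : ⟪G.toL u, G.toL v⟫ = G.ip u.1 v.1 := by
  rw [inner_toL]
  exact ip_congr (MemLp.coeFn_toLp (S2.l2 u.2)) _

/-- `L` on test functions -/
def LT (G : Gd d ι X) : G.TT →ₗ[ℝ] G.SS where
  toFun u := ⟨G.L u.1, tst_s2 (tstL u.2)⟩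
  map_add' u v := Subtype.ext (funext (L_add (Tst.sm u.2) (Tst.sm v.2)))
  map_smul' c u := Subtype.ext (funext (L_const_mul c (Tst.sm u.2)))

/-- the inclusion -/
def IT (G : Gd d ι X) : G.TT →ₗ[ℝ] G.SS := Submodule.inclusion fun _ h => tst_s2 h


/-- the shifted operator is onto -/
theorem Fam.solve (h : G.Fam ψ) : ∃ K : ℝ, ∀ g, G.S2 g → ∃ u, G.S2 u ∧
    ∀ p, G.L u p = g p + ∑ k, K * G.ip (ψ k) u * ψ k p := by
  obtain ⟨c, hc, h1⟩ := h.coer'
  refine ⟨c⁻¹, fun g hg => ?_⟩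
  let Ψ : κ → Lp ℝ 2 G.nu := fun k => G.toL ⟨ψ k, h.s2 k⟩
  let T : G.TT →ₗ[ℝ] Lp ℝ 2 G.nu := -(G.toL ∘ₗ G.LT) +
    ∑ k, c⁻¹ • (innerₗ _ (Ψ k) ∘ₗ G.toL ∘ₗ G.IT).smulRight (Ψ k)
  have hT : ∀ (w : Lp ℝ 2 G.nu) (φ : G.TT), ⟪w, T φ⟫ =
      -G.ip w (G.L φ.1) + ∑ k, c⁻¹ * G.ip w (ψ k) * G.ip (ψ k) φ.1 := fun w φ => by
    simp only [T, LinearMap.add_apply, LinearMap.neg_apply, LinearMap.sum_apply,
      LinearMap.smul_apply, LinearMap.smulRight_apply, LinearMap.comp_apply, innerₗ_apply_apply,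
      inner_add_right, inner_neg_right, inner_sum, inner_smul_right, Ψ, inner_toL']
    simp only [inner_toL]
    congr 1
    exact Finset.sum_congr rfl fun k _ => by
      rw [mul_assoc, mul_comm (G.ip w _)]; rfl
  obtain ⟨w, hw⟩ := La.hilb T (G.toL ∘ₗ G.IT) hc (fun φ => by
    have a1 := h1 _ (tst_h1 φ.2)
    have a2 : (G.toL (G.IT φ) : X → ℝ) =ᵐ[G.nu] φ.1 := MemLp.coeFn_toLp (tst_s2 φ.2).l2
    rw [real_inner_comm, LinearMap.comp_apply, hT, ← real_inner_self_eq_norm_sq, inner_toL']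
    simp only [ip_congr a2]
    rw [ip_comm _ (G.L _), ip_L_tst (Tst.sm φ.2) φ.2, neg_neg]
    simp only [ip_comm φ.1, mul_assoc, ← sq, ← Finset.mul_sum]
    refine le_trans ?_ a1
    rw [ip_self]
    exact mul_le_mul_of_nonneg_left (le_add_of_nonneg_right (n1_nonneg _)) hc.le)
    (-G.toL ⟨g, hg⟩)
  have sg := hg.add (s2_lc h.s2 fun k => c⁻¹ * G.ip w (ψ k))
  obtain ⟨y, hy, hyw, he⟩ := weyl sg.sm ((Lp.memLp w).locallyIntegrable one_le_two) fun φ hφ => by
    have a1 := hw ⟨φ, hφ⟩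
    rw [hT, inner_neg_left, LinearMap.comp_apply, inner_toL'] at a1
    rw [ip_comm _ φ, ip_add (tst_s2 hφ) hg (s2_lc h.s2 _), ip_lc (tst_s2 hφ) h.s2]
    simp only [ip_comm φ]
    change -G.ip w (G.L φ) + ∑ k, c⁻¹ * G.ip w (ψ k) * G.ip (ψ k) φ = -G.ip g φ at a1
    linarith
  refine ⟨y, ⟨hy, (Lp.memLp w).ae_eq hyw.symm⟩, fun p => ?_⟩
  simp only [he p, ip_comm (ψ _), ip_congr hyw]

theorem s2_L_of (hψ : ∀ k, G.S2 (ψ k)) (hg : G.S2 g) {c : κ → ℝ}
    (hL : ∀ p, G.L u p = g p + ∑ k, c k * ψ k p) : G.S2 (G.L u) := by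
  rw [show G.L u = _ from funext hL]
  exact hg.add (s2_lc hψ c)

/-- uniqueness -/
theorem Fam.uniq (h : G.Fam ψ) {c : κ → ℝ} (hu : G.S2 u) (hL : ∀ p, G.L u p = ∑ k, c k * ψ k p)
    (h0 : ∀ k, G.ip (ψ k) u = 0) : u = 0 ∧ c = 0 := by
  obtain ⟨c₀, hc, h1⟩ := h.coer
  have e : G.L u = fun p => ∑ k, c k * ψ k p := funext hL
  have s2 : G.S2 (G.L u) := e ▸ s2_lc h.s2 c
  have a1 := h1 u (hu.h1 s2) h0
  have a2 := ip_L hu s2 (hu.h1 s2)
  rw [e, ip_comm, ip_lc hu h.s2] at a2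
  simp only [ip_comm u, h0, mul_zero, Finset.sum_const_zero] at a2
  have a3 : u = 0 := eq_zero_of_n0 hu (le_antisymm (by
    nlinarith [n0_nonneg (G := G) u, n1_nonneg (G := G) u]) (n0_nonneg _))
  exact ⟨a3, li_zero h.li fun p => by rw [← hL, a3]; exact L_zero (by simp)⟩

theorem Fam.uniq' (h : G.Fam ψ) {c c' : κ → ℝ} (hu : G.S2 u) (hv : G.S2 v)
    (hL : ∀ p, G.L u p = g p + ∑ k, c k * ψ k p) (hL' : ∀ p, G.L v p = g p + ∑ k, c' k * ψ k p)
    (h0 : ∀ k, G.ip (ψ k) u = G.ip (ψ k) v) : u = v ∧ c = c' := by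
  obtain ⟨h1, h2⟩ := h.uniq (c := fun k => c k - c' k) (hu.sub hv) (fun p => by
    simp only [L_sub hu.sm hv.sm, hL, hL', sub_mul, Finset.sum_sub_distrib]; ring)
    fun k => by rw [ip_sub (h.s2 k) hu hv, h0, sub_self]
  exact ⟨funext fun p => sub_eq_zero.1 (congrFun h1 p), funext fun k => sub_eq_zero.1 (congrFun h2 k)⟩

/-- **existence** -/
theorem Fam.green (h : G.Fam ψ) (g : X → ℝ) (y : κ → ℝ) (hg : G.S2 g) :
    ∃ (u : X → ℝ) (c : κ → ℝ), G.H1 u ∧ (∀ p, G.L u p = g p + ∑ k, c k * ψ k p) ∧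
      ∀ k, G.ip (ψ k) u = y k := by
  obtain ⟨K, hK⟩ := h.solve
  choose z hz hLz using fun l => hK _ (h.s2 l)
  obtain ⟨u, hu, hLu⟩ := hK g hg
  have key : ∀ (x : κ → ℝ) p, G.L (fun p => ∑ l, x l * z l p) p =
      ∑ k, (x k + K * ∑ l, x l * G.ip (ψ k) (z l)) * ψ k p := fun x p => by
    simp only [L_lc fun l => (hz l).sm, hLz, mul_add, add_mul, Finset.sum_add_distrib,
      Finset.mul_sum, Finset.sum_mul]
    congr 1
    rw [Finset.sum_comm]
    exact Finset.sum_congr rfl fun _ _ => Finset.sum_congr rfl fun _ _ => by ring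
  obtain ⟨x, hx⟩ := solve_lin (fun k l => G.ip (ψ k) (z l)) (fun x hx => by
    have := (h.uniq (s2_lc hz x) (key x) fun k => by rw [ip_lc (h.s2 k) hz, hx]).2
    simpa only [hx, mul_zero, add_zero] using this) fun k => y k - G.ip (ψ k) u
  have hL : ∀ p, G.L (fun p => u p + ∑ l, x l * z l p) p = g p +
      ∑ k, (K * G.ip (ψ k) u + (x k + K * ∑ l, x l * G.ip (ψ k) (z l))) * ψ k p := fun p => by
    rw [L_add hu.sm (s2_lc hz x).sm, hLu, key, add_assoc, ← Finset.sum_add_distrib]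
    simp only [add_mul]
  exact ⟨_, _, (hu.add (s2_lc hz x)).h1 (s2_L_of h.s2 hg hL), hL, fun k => by
    rw [ip_add (h.s2 k) hu (s2_lc hz x), ip_lc (h.s2 k) hz, hx, add_sub_cancel]⟩

theorem n0_cmul_le (hu : G.S2 u) : G.n0 (fun p => G.c p * u p) ≤ G.B ^ 2 * G.n0 u := by
  rw [n0, n0, ← integral_const_mul]
  refine integral_mono hu.cmul.sq (hu.sq.const_mul _) fun p => ?_
  simp only [mul_pow]
  refine mul_le_mul_of_nonneg_right ?_ (sq_nonneg _)
  rw [← sq_abs]
  exact pow_le_pow_left₀ (abs_nonneg _) (G.cle p) 2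

/-- **the a-priori estimate** -/
theorem Fam.est (h : G.Fam ψ) : ∃ C : ℝ, 0 < C ∧ ∀ (u g : X → ℝ) (c : κ → ℝ), G.S2 u → G.S2 g →
    (∀ p, G.L u p = g p + ∑ k, c k * ψ k p) → G.H1 u ∧ Integrable (G.g2 u) G.nu ∧
      G.n0 u + G.n1 u + G.n2 u + ∑ k, c k ^ 2 ≤ C * (G.n0 g + ∑ k, G.ip (ψ k) u ^ 2) := by
  obtain ⟨C, hC, h1⟩ := h.gap
  obtain ⟨C', hC', h2⟩ := G.h2
  obtain ⟨Θ, hΘ, hΘ'⟩ : ∃ Θ : ℝ, 0 ≤ Θ ∧ Θ = ∑ k, G.n0 (ψ k) :=
    ⟨_, Finset.sum_nonneg fun k _ => n0_nonneg _, rfl⟩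
  refine ⟨C + C' * (4 + (4 * Θ + 2 * G.B ^ 2 + 1) * C), by positivity,
    fun u g c hu hg hL => ?_⟩
  have s2 := s2_L_of h.s2 hg hL
  have hu1 := hu.h1 s2
  obtain ⟨i2, a2⟩ := h2 u hu (s2_L0 hu s2)
  refine ⟨hu1, i2, ?_⟩
  have a1 := h1 u c (√(G.n0 g)) hu1 fun v hv => by
    have b1 := ip_L_tst hu.sm hv
    rw [show G.L u = _ from funext hL, ip_comm, ip_add (tst_s2 hv) hg (s2_lc h.s2 c),
      ip_lc (tst_s2 hv) h.s2] at b1
    simp only [ip_comm v] at b1
    rw [show G.Q u v + ∑ k, c k * G.ip (ψ k) v = -G.ip g v by linarith, abs_neg,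
      ← Real.sqrt_mul (n0_nonneg _)]
    exact Real.abs_le_sqrt ((ip_sq_le hg (tst_s2 hv)).trans (mul_le_mul_of_nonneg_left
      (le_add_of_nonneg_right (n1_nonneg _)) (n0_nonneg _)))
  rw [Real.sq_sqrt (n0_nonneg _)] at a1
  have a3 := n0_add_le s2 (hu.cmul.const_mul (-1))
  rw [n0_const_mul] at a3
  simp only [L, neg_mul, one_mul, add_neg_cancel_right, even_two, Even.neg_pow, one_pow] at a3
  change G.n0 (G.L0 u) ≤ 2 * G.n0 (G.L u) + _ at a3
  have a4 := n0_add_le hg (s2_lc h.s2 c)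
  rw [← show G.L u = _ from funext hL] at a4
  have a5 := n0_lc_le h.s2 c
  rw [← hΘ'] at a5
  have a6 := n0_cmul_le hu
  have p0 := n0_nonneg (G := G) u
  have p1 := n1_nonneg (G := G) u
  have p2 : 0 ≤ ∑ k, c k ^ 2 := Finset.sum_nonneg fun _ _ => sq_nonneg _
  have p3 : 0 ≤ ∑ k, G.ip (ψ k) u ^ 2 := Finset.sum_nonneg fun _ _ => sq_nonneg _
  have a7 : G.n0 (G.L0 u) + G.n1 u ≤ 4 * G.n0 g +
      (4 * Θ + 2 * G.B ^ 2 + 1) * (G.n0 u + G.n1 u + ∑ k, c k ^ 2) := by
    nlinarith [mul_nonneg hΘ p0, mul_nonneg hΘ p1, mul_nonneg (sq_nonneg G.B) p1,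
      mul_nonneg (sq_nonneg G.B) p2]
  have a8 := mul_le_mul_of_nonneg_left a1 (by positivity : 0 ≤ 4 * Θ + 2 * G.B ^ 2 + 1)
  have a9 : G.n0 (G.L0 u) + G.n1 u ≤
      (4 + (4 * Θ + 2 * G.B ^ 2 + 1) * C) * (G.n0 g + ∑ k, G.ip (ψ k) u ^ 2) := by nlinarith
  nlinarith [mul_le_mul_of_nonneg_left a9 hC'.le]


end Gd

end Crest.Agent.N250.Lin

end
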